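import Vale.Agent.P365.T2.H878.Smooth
import Mathlib.Analysis.Calculus.Deriv.MeanValue

set_option linter.all false

/-!
# P365 T2 / H878 / LL: the local generator of one site (292, note 20022, (G1)).

`LL A F y = - e_y ∂F/∂e_y + ∂_v ((e_y / (2 m_y)) ∂_v F)`, `m_y = Im G_yy`, `v` = real potential of
`y`.  Product rule, chain rule, `LL = 0` on the entries of the Green matrix.
-/

namespace P365H878

open MeasureTheory Set Filter P365L P365O P365T1 Vale.Agent.P365.J376 Complex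
open scoped Topology ComplexConjugate

variable {ι : Type*} [Fintype ι] [DecidableEq ι] {A : Matrix ι ι ℝ}

/-- directional derivative -/
noncomputable def DD (F : (ι → ℂ) → ℝ) (H W : ι → ℂ) : ℝ := fderiv ℝ F W H

omit [DecidableEq ι] in
theorem diffAt {X : Type*} [NormedAddCommGroup X] [NormedSpace ℝ X] {F : (ι → ℂ) → X}
    {n : WithTop ℕ∞} (hF : ContDiffOn ℝ n F (Om ι)) (hn : n ≠ 0) {W : ι → ℂ} (hW : W ∈ Om ι) :
    DifferentiableAt ℝ F W :=
  (hF.differentiableOn hn).differentiableAt (Om_mem_nhds hW)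

omit [Fintype ι] [DecidableEq ι] in
theorem DD_mul [Fintype ι] {F G : (ι → ℂ) → ℝ} {H W : ι → ℂ} (hF : DifferentiableAt ℝ F W)
    (hG : DifferentiableAt ℝ G W) :
    DD (fun W => F W * G W) H W = F W * DD G H W + G W * DD F H W := by
  unfold DD
  rw [fderiv_fun_mul hF hG]
  simp

theorem DD_add {F G : (ι → ℂ) → ℝ} {H W : ι → ℂ} (hF : DifferentiableAt ℝ F W)
    (hG : DifferentiableAt ℝ G W) :
    DD (fun W => F W + G W) H W = DD F H W + DD G H W := by
  unfold DD
  rw [fderiv_fun_add hF hG]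
  simp

theorem DD_sum {α : Type*} {s : Finset α} {F : α → (ι → ℂ) → ℝ} {H W : ι → ℂ}
    (hF : ∀ i ∈ s, DifferentiableAt ℝ (F i) W) :
    DD (fun W => ∑ i ∈ s, F i W) H W = ∑ i ∈ s, DD (F i) H W := by
  unfold DD
  rw [fderiv_fun_sum hF]
  simp

theorem DD_const_mul {F : (ι → ℂ) → ℝ} {H W : ι → ℂ} (c : ℝ) (hF : DifferentiableAt ℝ F W) :
    DD (fun W => c * F W) H W = c * DD F H W := by
  unfold DD
  rw [fderiv_const_mul hF]
  simp

theorem DD_comp {F : (ι → ℂ) → ℝ} {H W : ι → ℂ} {ψ : ℝ → ℝ} {ψ' : ℝ}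
    (hF : DifferentiableAt ℝ F W) (hψ : HasDerivAt ψ ψ' (F W)) :
    DD (fun W => ψ (F W)) H W = ψ' * DD F H W := by
  unfold DD
  have h := (hψ.comp_hasFDerivAt W hF.hasFDerivAt).fderiv
  have e : (fun W => ψ (F W)) = ψ ∘ F := rfl
  rw [e, h]
  simp

/-- directional derivative of a complex linear functional of one entry of the Green matrix -/
theorem DD_Gr (hA : A.IsSymm) {W : ι → ℂ} (hW : W ∈ Om ι) (a b : ι) (c : ℂ) (H : ι → ℂ) :
    DD (fun W => (c * Gr A W a b).re) H W = -(c * ∑ z, Gr A W a z * H z * Gr A W z b).re := by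
  have hd := diffAt (contDiffOn_Gr (n := 1) hA a b) one_ne_zero hW
  have h1 : HasFDerivAt (fun W : ι → ℂ => (c * Gr A W a b).re)
      (Complex.reCLM.comp (c • fderiv ℝ (fun W : ι → ℂ => Gr A W a b) W)) W :=
    Complex.reCLM.hasFDerivAt.comp W (hd.hasFDerivAt.const_mul c)
  unfold DD
  rw [h1.fderiv]
  simp only [ContinuousLinearMap.comp_apply, ContinuousLinearMap.smul_apply, fderiv_Gr hA hW,
    smul_eq_mul, Complex.reCLM_apply, mul_neg, Complex.neg_re]

theorem sum_single (hA : A.IsSymm) (W : ι → ℂ) (a b y : ι) (h : ℂ) :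
    ∑ z, Gr A W a z * (Pi.single y h : ι → ℂ) z * Gr A W z b = Gr A W a y * h * Gr A W y b := by
  rw [Finset.sum_eq_single y]
  · rw [Pi.single_eq_same]
  · intro z _ hz
    rw [Pi.single_eq_of_ne hz]
    ring
  · simp

theorem DV_Gr (hA : A.IsSymm) {W : ι → ℂ} (hW : W ∈ Om ι) (a b y : ι) (c : ℂ) :
    DV (fun W => (c * Gr A W a b).re) y W = -(c * (Gr A W a y * Gr A W y b)).re := by
  have h := DD_Gr hA hW a b c (Pi.single y 1)
  rw [sum_single hA, mul_one] at h
  exact h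

theorem DE_Gr (hA : A.IsSymm) {W : ι → ℂ} (hW : W ∈ Om ι) (a b y : ι) (c : ℂ) :
    DE (fun W => (c * Gr A W a b).re) y W = (c * I * (Gr A W a y * Gr A W y b)).re := by
  have h := DD_Gr hA hW a b c (Pi.single y (-I))
  rw [sum_single hA] at h
  unfold DE
  unfold DD at h
  rw [h, ← Complex.neg_re]
  congr 1
  ring

theorem DV_im (x y : ι) (W : ι → ℂ) : DV (fun W => (W x).im) y W = 0 := by
  have h1 : HasFDerivAt (fun W : ι → ℂ => (W x).im)
      (Complex.imCLM.comp (ContinuousLinearMap.proj (R := ℝ) (φ := fun _ : ι => ℂ) x)) W :=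
    Complex.imCLM.hasFDerivAt.comp W
      (ContinuousLinearMap.proj (R := ℝ) (φ := fun _ : ι => ℂ) x).hasFDerivAt
  unfold DV
  rw [h1.fderiv]
  simp only [ContinuousLinearMap.comp_apply, ContinuousLinearMap.proj_apply]
  by_cases h : x = y
  · subst h
    simp
  · simp [Pi.single_eq_of_ne h]

theorem DE_im (x y : ι) (W : ι → ℂ) : DE (fun W => (W x).im) y W = if x = y then -1 else 0 := by
  have h1 : HasFDerivAt (fun W : ι → ℂ => (W x).im)
      (Complex.imCLM.comp (ContinuousLinearMap.proj (R := ℝ) (φ := fun _ : ι => ℂ) x)) W :=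
    Complex.imCLM.hasFDerivAt.comp W
      (ContinuousLinearMap.proj (R := ℝ) (φ := fun _ : ι => ℂ) x).hasFDerivAt
  unfold DE
  rw [h1.fderiv]
  simp only [ContinuousLinearMap.comp_apply, ContinuousLinearMap.proj_apply]
  by_cases h : x = y
  · subst h
    simp
  · simp [Pi.single_eq_of_ne h, h]

theorem DV_mm (hA : A.IsSymm) {W : ι → ℂ} (hW : W ∈ Om ι) (x y : ι) :
    DV (fun W => mm A W x) y W = -(Gr A W x y * Gr A W y x).im := by
  have e : (fun W => mm A W x) = fun W : ι → ℂ => (-I * Gr A W x x).re := by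
    funext W
    unfold mm
    simp
  rw [e, DV_Gr hA hW]
  simp

theorem mm_pos (hA : A.IsSymm) {W : ι → ℂ} (hW : W ∈ Om ι) (x : ι) : 0 < mm A W x :=
  P365L.mm_pos hA hW x

/-! ### the local generator -/

/-- `(e_y / (2 m_y)) ∂_v F` -/
noncomputable def HV (A : Matrix ι ι ℝ) (F : (ι → ℂ) → ℝ) (y : ι) (W : ι → ℂ) : ℝ :=
  -(W y).im / (2 * mm A W y) * DV F y W

/-- the local generator -/
noncomputable def LL (A : Matrix ι ι ℝ) (F : (ι → ℂ) → ℝ) (y : ι) (W : ι → ℂ) : ℝ :=
  (W y).im * DE F y W + DV (HV A F y) y W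

theorem contDiffOn_pref (hA : A.IsSymm) {n : WithTop ℕ∞} (y : ι) :
    ContDiffOn ℝ n (fun W : ι → ℂ => -(W y).im / (2 * mm A W y)) (Om ι) := by
  refine ContDiffOn.div (contDiff_imc y).neg.contDiffOn
    (contDiffOn_const.mul (contDiffOn_mm hA y)) fun W hW => ?_
  have := mm_pos hA hW y
  positivity

theorem contDiffOn_DV' {F : (ι → ℂ) → ℝ} (hF : ContDiffOn ℝ 2 F (Om ι)) (y : ι) :
    ContDiffOn ℝ 1 (DV F y) (Om ι) :=
  contDiffOn_DV (n := 1) (by norm_num; exact hF) y

theorem contDiffOn_DE' {F : (ι → ℂ) → ℝ} (hF : ContDiffOn ℝ 2 F (Om ι)) (y : ι) :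
    ContDiffOn ℝ 1 (DE F y) (Om ι) :=
  contDiffOn_DE (n := 1) (by norm_num; exact hF) y

theorem contDiffOn_HV (hA : A.IsSymm) {F : (ι → ℂ) → ℝ} (hF : ContDiffOn ℝ 2 F (Om ι)) (y : ι) :
    ContDiffOn ℝ 1 (HV A F y) (Om ι) :=
  (contDiffOn_pref hA y).mul (contDiffOn_DV' hF y)

/-- derivatives only depend on the germ -/
theorem DD_congr {F G : (ι → ℂ) → ℝ} (h : ∀ W ∈ Om ι, F W = G W) (H : ι → ℂ) {W : ι → ℂ}
    (hW : W ∈ Om ι) : DD F H W = DD G H W := by
  unfold DD
  have : F =ᶠ[𝓝 W] G := by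
    filter_upwards [Om_mem_nhds hW] with W' hW' using h W' hW'
  rw [this.fderiv_eq]

theorem LL_congr {F G : (ι → ℂ) → ℝ} (h : ∀ W ∈ Om ι, F W = G W) (y : ι) {W : ι → ℂ}
    (hW : W ∈ Om ι) : LL A F y W = LL A G y W := by
  unfold LL
  have h1 : DE F y W = DE G y W := DD_congr h _ hW
  have h2 : ∀ W ∈ Om ι, HV A F y W = HV A G y W := by
    intro W' hW'
    unfold HV
    have : DV F y W' = DV G y W' := DD_congr h _ hW'
    rw [this]
  have h3 : DV (HV A F y) y W = DV (HV A G y) y W := DD_congr h2 _ hW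
  rw [h1, h3]

/-- **product rule** -/
theorem LL_mul (hA : A.IsSymm) {F G : (ι → ℂ) → ℝ} (hF : ContDiffOn ℝ 2 F (Om ι))
    (hG : ContDiffOn ℝ 2 G (Om ι)) (y : ι) {W : ι → ℂ} (hW : W ∈ Om ι) :
    LL A (fun W => F W * G W) y W = F W * LL A G y W + G W * LL A F y W +
      -(W y).im / mm A W y * (DV F y W * DV G y W) := by
  have hFd : ∀ W ∈ Om ι, DifferentiableAt ℝ F W := fun W hW => diffAt hF two_ne_zero hW
  have hGd : ∀ W ∈ Om ι, DifferentiableAt ℝ G W := fun W hW => diffAt hG two_ne_zero hW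
  have e1 : DE (fun W => F W * G W) y W = F W * DE G y W + G W * DE F y W :=
    DD_mul (hFd W hW) (hGd W hW)
  have e2 : ∀ W ∈ Om ι, HV A (fun W => F W * G W) y W = F W * HV A G y W + G W * HV A F y W := by
    intro W' hW'
    unfold HV
    have : DV (fun W => F W * G W) y W' = F W' * DV G y W' + G W' * DV F y W' :=
      DD_mul (hFd W' hW') (hGd W' hW')
    rw [this]
    ring
  have e3 : DV (HV A (fun W => F W * G W) y) y W =
      DV (fun W => F W * HV A G y W + G W * HV A F y W) y W := DD_congr e2 _ hW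
  have hHF := diffAt (contDiffOn_HV hA hF y) one_ne_zero hW
  have hHG := diffAt (contDiffOn_HV hA hG y) one_ne_zero hW
  have e4 : DV (fun W => F W * HV A G y W + G W * HV A F y W) y W =
      (F W * DV (HV A G y) y W + HV A G y W * DV F y W) +
        (G W * DV (HV A F y) y W + HV A F y W * DV G y W) := by
    have h1 : DV (fun W => F W * HV A G y W + G W * HV A F y W) y W =
        DV (fun W => F W * HV A G y W) y W + DV (fun W => G W * HV A F y W) y W :=
      DD_add ((hFd W hW).mul hHG) ((hGd W hW).mul hHF)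
    have h2 : DV (fun W => F W * HV A G y W) y W =
        F W * DV (HV A G y) y W + HV A G y W * DV F y W := DD_mul (hFd W hW) hHG
    have h3 : DV (fun W => G W * HV A F y W) y W =
        G W * DV (HV A F y) y W + HV A F y W * DV G y W := DD_mul (hGd W hW) hHF
    rw [h1, h2, h3]
  unfold LL
  rw [e1, e3, e4]
  have hm := (mm_pos hA hW y).ne'
  unfold HV
  field_simp
  ring

/-- **sums** -/
theorem LL_sum (hA : A.IsSymm) {α : Type*} {s : Finset α} {F : α → (ι → ℂ) → ℝ}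
    (hF : ∀ i ∈ s, ContDiffOn ℝ 2 (F i) (Om ι)) (y : ι) {W : ι → ℂ} (hW : W ∈ Om ι) :
    LL A (fun W => ∑ i ∈ s, F i W) y W = ∑ i ∈ s, LL A (F i) y W := by
  have e1 : DE (fun W => ∑ i ∈ s, F i W) y W = ∑ i ∈ s, DE (F i) y W :=
    DD_sum fun i hi => diffAt (hF i hi) two_ne_zero hW
  have e2 : ∀ W ∈ Om ι, HV A (fun W => ∑ i ∈ s, F i W) y W = ∑ i ∈ s, HV A (F i) y W := by
    intro W' hW'
    unfold HV
    have : DV (fun W => ∑ i ∈ s, F i W) y W' = ∑ i ∈ s, DV (F i) y W' :=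
      DD_sum fun i hi => diffAt (hF i hi) two_ne_zero hW'
    rw [this, Finset.mul_sum]
  have e3 : DV (HV A (fun W => ∑ i ∈ s, F i W) y) y W = DV (fun W => ∑ i ∈ s, HV A (F i) y W) y W :=
    DD_congr e2 _ hW
  have e4 : DV (fun W => ∑ i ∈ s, HV A (F i) y W) y W = ∑ i ∈ s, DV (HV A (F i) y) y W :=
    DD_sum fun i hi => diffAt (contDiffOn_HV hA (hF i hi) y) one_ne_zero hW
  unfold LL
  rw [e1, e3, e4, Finset.mul_sum, ← Finset.sum_add_distrib]

theorem LL_const_mul (hA : A.IsSymm) {F : (ι → ℂ) → ℝ} (hF : ContDiffOn ℝ 2 F (Om ι)) (c : ℝ)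
    (y : ι) {W : ι → ℂ} (hW : W ∈ Om ι) :
    LL A (fun W => c * F W) y W = c * LL A F y W := by
  have e1 : DE (fun W => c * F W) y W = c * DE F y W := DD_const_mul c (diffAt hF two_ne_zero hW)
  have e2 : ∀ W ∈ Om ι, HV A (fun W => c * F W) y W = c * HV A F y W := by
    intro W' hW'
    unfold HV
    have : DV (fun W => c * F W) y W' = c * DV F y W' :=
      DD_const_mul c (diffAt hF two_ne_zero hW')
    rw [this]
    ring
  have e3 : DV (HV A (fun W => c * F W) y) y W = DV (fun W => c * HV A F y W) y W :=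
    DD_congr e2 _ hW
  have e4 : DV (fun W => c * HV A F y W) y W = c * DV (HV A F y) y W :=
    DD_const_mul c (diffAt (contDiffOn_HV hA hF y) one_ne_zero hW)
  unfold LL
  rw [e1, e3, e4]
  ring

/-- **chain rule, one variable** (`J` an open set containing the values of `F`) -/
theorem LL_comp (hA : A.IsSymm) {F : (ι → ℂ) → ℝ} (hF : ContDiffOn ℝ 2 F (Om ι)) {J : Set ℝ}
    {ψ ψ1 ψ2 : ℝ → ℝ} (hJ : ∀ W ∈ Om ι, F W ∈ J) (h1 : ∀ u ∈ J, HasDerivAt ψ (ψ1 u) u)
    (h2 : ∀ u ∈ J, HasDerivAt ψ1 (ψ2 u) u) (y : ι) {W : ι → ℂ} (hW : W ∈ Om ι) :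
    LL A (fun W => ψ (F W)) y W = ψ1 (F W) * LL A F y W +
      -(W y).im / (2 * mm A W y) * (ψ2 (F W) * DV F y W ^ 2) := by
  have hFd : ∀ W ∈ Om ι, DifferentiableAt ℝ F W := fun W hW => diffAt hF two_ne_zero hW
  have e1 : DE (fun W => ψ (F W)) y W = ψ1 (F W) * DE F y W :=
    DD_comp (hFd W hW) (h1 _ (hJ W hW))
  have e2 : ∀ W ∈ Om ι, HV A (fun W => ψ (F W)) y W = ψ1 (F W) * HV A F y W := by
    intro W' hW'
    unfold HV
    have : DV (fun W => ψ (F W)) y W' = ψ1 (F W') * DV F y W' :=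
      DD_comp (hFd W' hW') (h1 _ (hJ W' hW'))
    rw [this]
    ring
  have e3 : DV (HV A (fun W => ψ (F W)) y) y W = DV (fun W => ψ1 (F W) * HV A F y W) y W :=
    DD_congr e2 _ hW
  have hHF := diffAt (contDiffOn_HV hA hF y) one_ne_zero hW
  have hψF : DifferentiableAt ℝ (fun W => ψ1 (F W)) W :=
    ((h2 _ (hJ W hW)).comp_hasFDerivAt W (hFd W hW).hasFDerivAt).differentiableAt
  have e4 : DV (fun W => ψ1 (F W) * HV A F y W) y W =
      ψ1 (F W) * DV (HV A F y) y W + HV A F y W * (ψ2 (F W) * DV F y W) := by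
    have h3 : DV (fun W => ψ1 (F W)) y W = ψ2 (F W) * DV F y W :=
      DD_comp (hFd W hW) (h2 _ (hJ W hW))
    have h4 : DV (fun W => ψ1 (F W) * HV A F y W) y W =
        ψ1 (F W) * DV (HV A F y) y W + HV A F y W * DV (fun W => ψ1 (F W)) y W :=
      DD_mul hψF hHF
    rw [h4, h3]
  unfold LL
  rw [e1, e3, e4]
  unfold HV
  ring

/-- **`LL` kills the entries of the Green matrix** -/
theorem LL_Gr (hA : A.IsSymm) (a b y : ι) (c : ℂ) {W : ι → ℂ} (hW : W ∈ Om ι) :
    LL A (fun W => (c * Gr A W a b).re) y W = 0 := by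
  have hGr := fun a b => contDiffOn_Gr (n := 1) hA a b
  have e1 := DE_Gr hA hW a b y c
  have e2 : ∀ W ∈ Om ι, HV A (fun W => (c * Gr A W a b).re) y W =
      -(W y).im / (2 * mm A W y) * -(c * (Gr A W a y * Gr A W y b)).re := by
    intro W' hW'
    unfold HV
    rw [DV_Gr hA hW']
  have e3 : DV (HV A (fun W => (c * Gr A W a b).re) y) y W =
      DV (fun W => -(W y).im / (2 * mm A W y) * -(c * (Gr A W a y * Gr A W y b)).re) y W :=
    DD_congr e2 _ hW
  -- derivative of the product of two entries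
  have hd1 := diffAt (hGr a y) one_ne_zero hW
  have hd2 := diffAt (hGr y b) one_ne_zero hW
  have hprod : HasFDerivAt (fun W : ι → ℂ => -(c * (Gr A W a y * Gr A W y b)).re)
      (-(Complex.reCLM.comp (c • (Gr A W a y • fderiv ℝ (fun W : ι → ℂ => Gr A W y b) W +
        Gr A W y b • fderiv ℝ (fun W : ι → ℂ => Gr A W a y) W)))) W :=
    (Complex.reCLM.hasFDerivAt.comp W ((hd1.hasFDerivAt.mul hd2.hasFDerivAt).const_mul c)).neg
  have e5 : DV (fun W : ι → ℂ => -(c * (Gr A W a y * Gr A W y b)).re) y W =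
      2 * (c * (Gr A W a y * Gr A W y b) * Gr A W y y).re := by
    unfold DV
    rw [hprod.fderiv]
    simp only [ContinuousLinearMap.neg_apply, ContinuousLinearMap.comp_apply,
      ContinuousLinearMap.smul_apply, ContinuousLinearMap.add_apply, fderiv_Gr hA hW,
      sum_single hA, smul_eq_mul, Complex.reCLM_apply, ← Complex.neg_re]
    have h2 : (2 : ℝ) * (c * (Gr A W a y * Gr A W y b) * Gr A W y y).re =
        (2 * (c * (Gr A W a y * Gr A W y b) * Gr A W y y)).re := by simp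
    rw [h2]
    congr 1
    ring
  have hm := mm_pos hA hW y
  have e6 : DV (fun W : ι → ℂ => -(W y).im / (2 * mm A W y)) y W =
      -(W y).im / (2 * mm A W y ^ 2) * (Gr A W y y * Gr A W y y).im := by
    have hmd := diffAt (contDiffOn_mm (n := 1) hA y) one_ne_zero hW
    have hinv : DV (fun W : ι → ℂ => (fun u : ℝ => (2 * u)⁻¹) (mm A W y)) y W =
        (-(2 * mm A W y ^ 2)⁻¹) * DV (fun W => mm A W y) y W := by
      have h0 : HasDerivAt (fun u : ℝ => 2 * u) 2 (mm A W y) := by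
        simpa using (hasDerivAt_id (mm A W y)).const_mul 2
      have h1 := h0.inv (by positivity : (2 * mm A W y) ≠ 0)
      have h2 : HasDerivAt (fun u : ℝ => (2 * u)⁻¹) (-(2 * mm A W y ^ 2)⁻¹) (mm A W y) := by
        refine h1.congr_deriv ?_
        field_simp
      exact DD_comp (ψ := fun u : ℝ => (2 * u)⁻¹) hmd h2
    have hmul : DV (fun W : ι → ℂ => (-(W y).im) * (2 * mm A W y)⁻¹) y W =
        (-(W y).im) * DV (fun W : ι → ℂ => (2 * mm A W y)⁻¹) y W +
          (2 * mm A W y)⁻¹ * DV (fun W : ι → ℂ => (-(W y).im)) y W := by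
      refine DD_mul ?_ ?_
      · exact (contDiff_imc (n := 1) y).neg.differentiable one_ne_zero W
      · exact diffAt (ContDiffOn.inv (n := 1) (contDiffOn_const.mul (contDiffOn_mm hA y))
          fun W hW => by have := mm_pos hA hW y; positivity) one_ne_zero hW
    have hneg : DV (fun W : ι → ℂ => (-(W y).im)) y W = 0 := by
      have h0 : DV (fun W : ι → ℂ => (-1) * (W y).im) y W = (-1) * DV (fun W => (W y).im) y W :=
        DD_const_mul (-1) ((contDiff_imc (n := 1) y).differentiable one_ne_zero W)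
      have e7 : (fun W : ι → ℂ => (-(W y).im)) = fun W => (-1) * (W y).im := by
        funext W; ring
      rw [e7, h0, DV_im, mul_zero]
    have e8 : (fun W : ι → ℂ => -(W y).im / (2 * mm A W y)) =
        fun W => (-(W y).im) * (2 * mm A W y)⁻¹ := by
      funext W; rw [div_eq_mul_inv]
    rw [e8, hmul, hneg, mul_zero, add_zero]
    have e9 : DV (fun W : ι → ℂ => (2 * mm A W y)⁻¹) y W =
        (-(2 * mm A W y ^ 2)⁻¹) * DV (fun W => mm A W y) y W := hinv
    rw [e9, DV_mm hA hW]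
    ring
  have e4 : DV (fun W => -(W y).im / (2 * mm A W y) * -(c * (Gr A W a y * Gr A W y b)).re) y W =
      -(W y).im / (2 * mm A W y) * (2 * (c * (Gr A W a y * Gr A W y b) * Gr A W y y).re) +
        -(c * (Gr A W a y * Gr A W y b)).re *
          (-(W y).im / (2 * mm A W y ^ 2) * (Gr A W y y * Gr A W y y).im) := by
    rw [← e5, ← e6]
    exact DD_mul (diffAt (contDiffOn_pref (n := 1) hA y) one_ne_zero hW) hprod.differentiableAt
  unfold LL
  rw [e1, e3, e4]
  obtain ⟨g, hg⟩ : ∃ g : ℂ, g = c * (Gr A W a y * Gr A W y b) := ⟨_, rfl⟩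
  have e10 : (c * I * (Gr A W a y * Gr A W y b)).re = -g.im := by
    rw [hg]
    have : c * I * (Gr A W a y * Gr A W y b) = (c * (Gr A W a y * Gr A W y b)) * I := by ring
    rw [this]
    simp
  have hmdef : (Gr A W y y).im = mm A W y := rfl
  rw [e10, ← hg, Complex.mul_re, Complex.mul_im, hmdef]
  field_simp
  ring

end P365H878
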