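import Vale.Agent.P365.T2.H878.LL2
import Vale.Agent.P365.T2.UpsGen844

set_option linter.all false

/-!
# P365 T2 / H878 / Ups: the local generator of the summand of the one-body entropy is 844's `LLU`.
-/

namespace P365H878

open MeasureTheory Set Filter P365L P365O P365T1 Vale.Agent.P365.J376 Complex
open scoped Topology ComplexConjugate

variable {ι : Type*} [Fintype ι] [DecidableEq ι] {A : Matrix ι ι ℝ}

/-- the gradient of `u = N_x / M_x` -/
theorem DV_u (hA : A.IsSymm) (w : ι → ℝ) (x y : ι) {W : ι → ℂ} (hW : W ∈ Om ι) :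
    DV (fun W => NN A w x W / MM A x W) y W =
      -(2 * (-(W x).im) / MM A x W) * (Gr A W x y * ∑ z,
        (((-(W z).im) * (w z - NN A w x W / MM A x W) : ℝ) : ℂ) *
          (conj (Gr A W x z) * Gr A W y z)).re := by
  have hMx := MM_pos hA hW x
  obtain ⟨u, hu⟩ : ∃ u : ℝ, u = NN A w x W / MM A x W := ⟨_, rfl⟩
  obtain ⟨d, hd⟩ : ∃ d : ℝ, d = DV (fun W => NN A w x W / MM A x W) y W := ⟨_, rfl⟩
  have hdM := diffAt (contDiffOn_MM (n := 1) hA x) one_ne_zero hW
  have hdu : DifferentiableAt ℝ (fun W => NN A w x W / MM A x W) W :=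
    diffAt ((contDiffOn_NN (n := 1) hA w x).div (contDiffOn_MM hA x)
      fun W hW => (MM_pos hA hW x).ne') one_ne_zero hW
  have h1 : DV (NN A w x) y W = u * DV (MM A x) y W + MM A x W * d := by
    have e1 : DV (NN A w x) y W = DV (fun W => (NN A w x W / MM A x W) * MM A x W) y W :=
      DD_congr (fun W hW => (div_mul_cancel₀ _ (MM_pos hA hW x).ne').symm) _ hW
    have e2 : DV (fun W => (NN A w x W / MM A x W) * MM A x W) y W =
        (NN A w x W / MM A x W) * DV (MM A x) y W +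
          MM A x W * DV (fun W => NN A w x W / MM A x W) y W := DD_mul hdu hdM
    rw [e1, e2, ← hu, ← hd]
  have h2 : DV (MM A x) y W = DV (NN A (fun _ => 1) x) y W := DD_congr (MM_fun hA x) _ hW
  rw [h2, DV_NN hA w x y hW, DV_NN hA (fun _ => 1) x y hW] at h1
  have e3 : MM A x W * d = ∑ z, -(2 * ((W x).im * (W z).im) * (w z - u) *
      (conj (Gr A W x z) * (Gr A W x y * Gr A W y z)).re) := by
    have : MM A x W * d = -(2 * ∑ z, (W x).im * (W z).im * w z *
        (conj (Gr A W x z) * (Gr A W x y * Gr A W y z)).re) +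
        u * (2 * ∑ z, (W x).im * (W z).im * 1 *
        (conj (Gr A W x z) * (Gr A W x y * Gr A W y z)).re) := by linarith
    rw [this, Finset.mul_sum, Finset.mul_sum, Finset.mul_sum, ← Finset.sum_neg_distrib,
      ← Finset.sum_add_distrib]
    exact Finset.sum_congr rfl fun z _ => by ring
  rw [← hu, ← hd]
  have e4 : (Gr A W x y * ∑ z, (((-(W z).im) * (w z - u) : ℝ) : ℂ) *
      (conj (Gr A W x z) * Gr A W y z)).re = ∑ z, (-(W z).im) * (w z - u) *
        (conj (Gr A W x z) * (Gr A W x y * Gr A W y z)).re := by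
    rw [Finset.mul_sum, Complex.re_sum]
    refine Finset.sum_congr rfl fun z _ => ?_
    rw [← Complex.re_ofReal_mul]
    congr 1
    ring
  rw [e4]
  have e5 : d = (MM A x W * d) / MM A x W := by field_simp
  rw [e5, e3, Finset.sum_div, Finset.mul_sum]
  refine Finset.sum_congr rfl fun z _ => ?_
  field_simp

/-- `u_x` does not depend on the potential at `x` -/
theorem DV_u_self (hA : A.IsSymm) (w : ι → ℝ) (x : ι) {W : ι → ℂ} (hW : W ∈ Om ι) :
    DV (fun W => NN A w x W / MM A x W) x W = 0 := by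
  have hMx := MM_pos hA hW x
  rw [DV_u hA w x x hW]
  obtain ⟨u, hu⟩ : ∃ u : ℝ, u = NN A w x W / MM A x W := ⟨_, rfl⟩
  have huM : u * MM A x W = NN A w x W := by rw [hu]; field_simp
  rw [← hu]
  have e1 : ∑ z, (((-(W z).im) * (w z - u) : ℝ) : ℂ) *
      (conj (Gr A W x z) * Gr A W x z) =
      ((∑ z, (-(W z).im) * (w z - u) * KK A W x z : ℝ) : ℂ) := by
    rw [Complex.ofReal_sum]
    refine Finset.sum_congr rfl fun z _ => ?_
    unfold KK
    rw [← Complex.normSq_eq_conj_mul_self, Complex.normSq_eq_norm_sq]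
    push_cast
    ring
  have e2 : (-(W x).im) * ∑ z, (-(W z).im) * (w z - u) * KK A W x z = 0 := by
    have h : (-(W x).im) * ∑ z, (-(W z).im) * (w z - u) * KK A W x z =
        NN A w x W - u * MM A x W := by
      rw [MM_eq hA hW x, NN, Finset.mul_sum, Finset.mul_sum, ← Finset.sum_sub_distrib]
      refine Finset.sum_congr rfl fun z _ => ?_
      unfold TT
      ring
    rw [h, huM, sub_self]
  have e3 : ∑ z, (-(W z).im) * (w z - u) * KK A W x z = 0 := by
    rcases mul_eq_zero.1 e2 with h | h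
    · exact absurd h (neg_pos.2 (hW x)).ne'
    · exact h
  rw [e1, e3]
  simp

/-! ### 844's names -/

open P365T2.H844 (tt pr Pw ur Gf Gf1 Gf2 dthu LLU)
open P365T2.H37 (wk rho)

section bridge

variable {X : Type*} [NormedAddCommGroup X] [InnerProductSpace ℝ X] {Φ : ι → X}

theorem TT_eq (x y : ι) (W : ι → ℂ) : P365T2.H844.TT A W x y = TT A x y W := by
  unfold P365T2.H844.TT TT
  ring

theorem pr_eq (hA : A.IsSymm) (x : ι) {W : ι → ℂ} (hW : W ∈ Om ι) :
    pr (P365T2.H844.TT A W) x = MM A x W := by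
  rw [MM_eq hA hW, pr]
  exact Finset.sum_congr rfl fun y _ => TT_eq x y W

theorem Pw_eq (hA : A.IsSymm) (J k : ℕ) (v x : ι) {W : ι → ℂ} (hW : W ∈ Om ι) :
    Pw Φ (P365T2.H844.TT A W) J k v x =
      NN A (fun z => wk J k (tt Φ x z)) v W / MM A v W := by
  unfold Pw NN
  rw [Finset.sum_div]
  refine Finset.sum_congr rfl fun z _ => ?_
  rw [pr_eq hA v hW, TT_eq]
  ring

theorem NN_div (w : ι → ℝ) (r : ℝ) (x : ι) (W : ι → ℂ) :
    NN A (fun z => w z / r) x W = NN A w x W / r := by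
  unfold NN
  rw [Finset.sum_div]
  exact Finset.sum_congr rfl fun z _ => by ring

theorem ur_eq (hA : A.IsSymm) (J k : ℕ) (x : ι) {W : ι → ℂ} (hW : W ∈ Om ι) :
    ur Φ (P365T2.H844.TT A W) J k x =
      NN A (fun z => wk J k (tt Φ x z) / rho k) x W / MM A x W := by
  unfold ur
  rw [Pw_eq hA J k x x hW, NN_div]
  ring

theorem hasDerivAt_Gf {ε u : ℝ} (h : 0 < u + ε) : HasDerivAt (Gf ε) (Gf1 ε u) u := by
  have h1 : HasDerivAt (fun u : ℝ => u + ε) 1 u := (hasDerivAt_id u).add_const ε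
  have h2 := (hasDerivAt_id u).mul (h1.log h.ne')
  refine h2.congr_deriv ?_
  unfold Gf1
  simp only [id]
  ring

theorem hasDerivAt_Gf1 {ε u : ℝ} (h : 0 < u + ε) : HasDerivAt (Gf1 ε) (Gf2 ε u) u := by
  have h1 : HasDerivAt (fun u : ℝ => u + ε) 1 u := (hasDerivAt_id u).add_const ε
  have h2 := (h1.log h.ne').add ((hasDerivAt_id u).div h1 h.ne')
  refine h2.congr_deriv ?_
  unfold Gf2
  simp only [id]
  field_simp
  ring

theorem contDiffOn_Gf {n : WithTop ℕ∞} {ε : ℝ} : ContDiffOn ℝ n (Gf ε) {u | 0 < u + ε} := by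
  unfold Gf
  refine contDiffOn_id.mul (ContDiffOn.log (contDiffOn_id.add contDiffOn_const) ?_)
  intro u hu
  exact (ne_of_gt hu)

theorem tt_self' (x : ι) : tt Φ x x = 0 := by unfold tt; simp

theorem wk_zero' (J k : ℕ) : wk J k 0 = 0 := by
  unfold wk P365T2.H37.Hc P365T2.H37.hk
  simp

/-- **the local generator of the entropy term is `LLU`** -/
theorem LL_ups (hA : A.IsSymm) {ε : ℝ} (hε : 0 < ε) (J k : ℕ) (x y : ι) {W : ι → ℂ}
    (hW : W ∈ Om ι) :
    LL A (fun W => rho k * pr (P365T2.H844.TT A W) x *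
      Gf ε (ur Φ (P365T2.H844.TT A W) J k x)) y W = LLU Φ A W ε J k y x := by
  obtain ⟨w, hw⟩ : ∃ w : ι → ℝ, w = fun z => wk J k (tt Φ x z) / rho k := ⟨_, rfl⟩
  have hrho := P365T2.H37.rho_pos k
  have hw0 : ∀ z, 0 ≤ w z := fun z => by
    rw [hw]
    exact div_nonneg (P365T2.H37.wk_nonneg (P365T2.H844.tt_nonneg x z)) hrho.le
  have hN := contDiffOn_NN (n := 2) hA w x
  have hM := contDiffOn_MM (n := 2) hA x
  have hM0 : ∀ W ∈ Om ι, 0 < MM A x W := fun W hW => MM_pos hA hW x
  have hJ : ∀ W ∈ Om ι, NN A w x W / MM A x W ∈ {u : ℝ | 0 < u + ε} := by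
    intro W hW
    have h1 := NN_nonneg (A := A) hw0 hW x
    have h2 := MM_pos hA hW x
    show 0 < NN A w x W / MM A x W + ε
    positivity
  have hu : ContDiffOn ℝ 2 (fun W => NN A w x W / MM A x W) (Om ι) :=
    hN.div hM fun W hW => (hM0 W hW).ne'
  have hψ : ContDiffOn ℝ 2 (fun W => Gf ε (NN A w x W / MM A x W)) (Om ι) :=
    contDiffOn_Gf.comp hu hJ
  have e0 : ∀ W ∈ Om ι, rho k * pr (P365T2.H844.TT A W) x *
      Gf ε (ur Φ (P365T2.H844.TT A W) J k x) =
      rho k * (MM A x W * Gf ε (NN A w x W / MM A x W)) := by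
    intro W hW
    rw [pr_eq hA x hW, ur_eq hA J k x hW, hw]
    ring
  rw [LL_congr e0 y hW, LL_const_mul hA (hM.mul hψ) (rho k) y hW,
    LL_body hA hN hM hM0 hJ (fun u hu => hasDerivAt_Gf hu) (fun u hu => hasDerivAt_Gf1 hu) hψ y hW,
    LL_NN hA w x y hW, LL_MM hA x y hW]
  have hpx := pr_eq hA x hW
  have hpy := pr_eq hA y hW
  have hux := ur_eq (Φ := Φ) hA J k x hW
  rw [← hw] at hux
  have hMx := MM_pos hA hW x
  have hMy := MM_pos hA hW y
  have hmy := mm_pos hA hW y
  by_cases hxy : x = y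
  · subst hxy
    rw [DV_u_self hA w x hW]
    unfold LLU
    rw [if_pos rfl, hpx, hux, TT_eq]
    have hwx : w x = 0 := by rw [hw]; simp only [tt_self', wk_zero', zero_div]
    rw [hwx]
    simp only [if_true]
    field_simp
    ring
  · unfold LLU
    rw [if_neg hxy, hpx, hpy, hux, TT_eq, Pw_eq hA J k y x hW]
    simp only [if_neg hxy]
    -- the gradient
    have hDV := DV_u hA w x y hW
    have hdth : dthu Φ A W J k y x =
        DV (fun W => NN A w x W / MM A x W) y W / (2 * mm A W y) := by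
      rw [hDV]
      unfold dthu
      rw [hpx, hux]
      have e1 : (Gr A W x y * ∑ b, (((-(W b).im) * (wk J k (tt Φ x b) -
          rho k * (NN A w x W / MM A x W)) : ℝ) : ℂ) * (conj (Gr A W x b) * Gr A W y b)).re =
          rho k * (Gr A W x y * ∑ z, (((-(W z).im) * (w z - NN A w x W / MM A x W) : ℝ) : ℂ) *
            (conj (Gr A W x z) * Gr A W y z)).re := by
        rw [← Complex.re_ofReal_mul]
        congr 1
        rw [← mul_assoc, mul_comm ((rho k : ℝ) : ℂ) (Gr A W x y), mul_assoc]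
        congr 1
        rw [Finset.mul_sum]
        refine Finset.sum_congr rfl fun z _ => ?_
        have e2 : wk J k (tt Φ x z) = rho k * w z := by
          rw [hw]; field_simp
        rw [e2]
        push_cast
        ring
      rw [e1]
      field_simp
    rw [hdth]
    have e3 : NN A (fun z => wk J k (tt Φ x z)) y W = rho k * NN A w y W := by
      rw [hw, NN_div]; field_simp
    have e4 : wk J k (tt Φ x y) = rho k * w y := by
      rw [hw]; field_simp
    have e5 : MM A y W = -(W y).im * mm A W y := rfl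
    rw [e3, e4]
    obtain ⟨g1, hg1⟩ : ∃ g : ℝ, g = Gf1 ε (NN A w x W / MM A x W) := ⟨_, rfl⟩
    obtain ⟨g2, hg2⟩ : ∃ g : ℝ, g = Gf2 ε (NN A w x W / MM A x W) := ⟨_, rfl⟩
    obtain ⟨g0, hg0⟩ : ∃ g : ℝ, g = Gf ε (NN A w x W / MM A x W) := ⟨_, rfl⟩
    obtain ⟨d, hd⟩ : ∃ d : ℝ, d = DV (fun W => NN A w x W / MM A x W) y W := ⟨_, rfl⟩
    rw [← hg1, ← hg2, ← hg0, ← hd]
    have e6 : 2 * MM A y W * MM A x W * g2 * (d / (2 * mm A W y)) ^ 2 =
        -(W y).im / (2 * mm A W y) * (MM A x W * (g2 * d ^ 2)) := by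
      rw [e5]
      field_simp
    rw [e6, TT_eq x y W]
    ring

end bridge

end P365H878
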