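import Vale.Agent.P365.T2.H878.LL

set_option linter.all false

/-!
# P365 T2 / H878 / LL2: the local generator on one-body functionals.

`TT x z = e_x e_z |G_xz|²`, `MM x = e_x Im G_xx = ∑_z TT x z`, `NN w x = ∑_z TT x z * w z`.
-/

namespace P365H878

open MeasureTheory Set Filter P365L P365O P365T1 Vale.Agent.P365.J376 Complex
open scoped Topology ComplexConjugate

variable {ι : Type*} [Fintype ι] [DecidableEq ι] {A : Matrix ι ι ℝ}

/-- `e_x e_z |G_xz|²` -/
noncomputable def TT (A : Matrix ι ι ℝ) (x z : ι) (W : ι → ℂ) : ℝ :=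
  (W x).im * (W z).im * KK A W x z

/-- `e_x Im G_xx` -/
noncomputable def MM (A : Matrix ι ι ℝ) (x : ι) (W : ι → ℂ) : ℝ := -(W x).im * mm A W x

/-- `∑_z e_x e_z |G_xz|² w_z` -/
noncomputable def NN (A : Matrix ι ι ℝ) (w : ι → ℝ) (x : ι) (W : ι → ℂ) : ℝ :=
  ∑ z, TT A x z W * w z

section basic

variable {W : ι → ℂ}

theorem TT_nonneg (hW : W ∈ Om ι) (x z : ι) : 0 ≤ TT A x z W :=
  mul_nonneg (mul_nonneg_of_nonpos_of_nonpos (hW x).le (hW z).le) (KK_nonneg _ _)

theorem TT_symm (hA : A.IsSymm) (W : ι → ℂ) (x z : ι) : TT A x z W = TT A z x W := by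
  unfold TT KK
  rw [Gr_symm hA]
  ring

theorem MM_pos (hA : A.IsSymm) (hW : W ∈ Om ι) (x : ι) : 0 < MM A x W :=
  mul_pos (neg_pos.2 (hW x)) (mm_pos hA hW x)

theorem MM_eq (hA : A.IsSymm) (hW : W ∈ Om ι) (x : ι) : MM A x W = ∑ z, TT A x z W := by
  unfold MM TT
  rw [mm_eq hA hW, Finset.mul_sum]
  exact Finset.sum_congr rfl fun z _ => by ring

theorem TT_le_MM (hA : A.IsSymm) (hW : W ∈ Om ι) (x z : ι) : TT A x z W ≤ MM A x W := by
  rw [MM_eq hA hW]
  exact Finset.single_le_sum (f := fun z => TT A x z W) (fun z _ => TT_nonneg hW x z)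
    (Finset.mem_univ z)

theorem NN_nonneg {w : ι → ℝ} (hw : ∀ z, 0 ≤ w z) (hW : W ∈ Om ι) (x : ι) : 0 ≤ NN A w x W :=
  Finset.sum_nonneg fun z _ => mul_nonneg (TT_nonneg hW x z) (hw z)

end basic

/-! ### smoothness -/

theorem contDiffOn_TT (hA : A.IsSymm) {n : WithTop ℕ∞} (x z : ι) :
    ContDiffOn ℝ n (TT A x z) (Om ι) :=
  ((contDiff_imc x).mul (contDiff_imc z)).contDiffOn.mul (contDiffOn_KK hA x z)

theorem contDiffOn_MM (hA : A.IsSymm) {n : WithTop ℕ∞} (x : ι) :
    ContDiffOn ℝ n (MM A x) (Om ι) :=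
  (contDiff_imc x).neg.contDiffOn.mul (contDiffOn_mm hA x)

theorem contDiffOn_NN (hA : A.IsSymm) {n : WithTop ℕ∞} (w : ι → ℝ) (x : ι) :
    ContDiffOn ℝ n (NN A w x) (Om ι) := by
  unfold NN
  exact ContDiffOn.sum fun z _ => (contDiffOn_TT hA x z).mul contDiffOn_const

/-! ### the generator on the basic functionals -/

theorem contDiffOn_reGr (hA : A.IsSymm) {n : WithTop ℕ∞} (a b : ι) (c : ℂ) :
    ContDiffOn ℝ n (fun W : ι → ℂ => (c * Gr A W a b).re) (Om ι) :=
  Complex.reCLM.contDiff.comp_contDiffOn (contDiffOn_const.mul (contDiffOn_Gr hA a b))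

theorem LL_sq (hA : A.IsSymm) {F : (ι → ℂ) → ℝ} (hF : ContDiffOn ℝ 2 F (Om ι)) (y : ι)
    {W : ι → ℂ} (hW : W ∈ Om ι) :
    LL A (fun W => F W * F W) y W = 2 * F W * LL A F y W +
      -(W y).im / mm A W y * DV F y W ^ 2 := by
  rw [LL_mul hA hF hF y hW]
  ring

theorem LL_KK (hA : A.IsSymm) (x z y : ι) {W : ι → ℂ} (hW : W ∈ Om ι) :
    LL A (fun W => KK A W x z) y W = -(W y).im / mm A W y * (KK A W x y * KK A W y z) := by
  have e : (fun W => KK A W x z) = fun W : ι → ℂ =>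
      ((1 * Gr A W x z).re * (1 * Gr A W x z).re) +
        ((-I * Gr A W x z).re * (-I * Gr A W x z).re) := by
    funext W
    unfold KK
    rw [Complex.sq_norm, Complex.normSq_apply]
    simp
  have h1 := contDiffOn_reGr (n := 2) hA x z 1
  have h2 := contDiffOn_reGr (n := 2) hA x z (-I)
  have e2 : LL A (fun W : ι → ℂ =>
      ((1 * Gr A W x z).re * (1 * Gr A W x z).re) +
        ((-I * Gr A W x z).re * (-I * Gr A W x z).re)) y W =
      LL A (fun W : ι → ℂ => (1 * Gr A W x z).re * (1 * Gr A W x z).re) y W +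
        LL A (fun W : ι → ℂ => (-I * Gr A W x z).re * (-I * Gr A W x z).re) y W := by
    have h3 := LL_sum hA (s := (Finset.univ : Finset Bool))
      (F := fun i W => if i then ((1 : ℂ) * Gr A W x z).re * (1 * Gr A W x z).re else
        (-I * Gr A W x z).re * (-I * Gr A W x z).re)
      (fun i _ => by cases i <;> simp only [if_true, Bool.false_eq_true, if_false]
                     · exact h2.mul h2
                     · exact h1.mul h1) y hW
    simpa using h3
  rw [e, e2, LL_sq hA h1 y hW, LL_sq hA h2 y hW, LL_Gr hA x z y 1 hW, LL_Gr hA x z y (-I) hW,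
    DV_Gr hA hW, DV_Gr hA hW]
  have e3 : KK A W x y * KK A W y z = ((1 : ℂ) * (Gr A W x y * Gr A W y z)).re ^ 2 +
      ((-I) * (Gr A W x y * Gr A W y z)).re ^ 2 := by
    unfold KK
    rw [← mul_pow, ← norm_mul, Complex.sq_norm, Complex.normSq_apply]
    simp
    ring
  rw [e3]
  ring

theorem LL_im (hA : A.IsSymm) (x y : ι) {W : ι → ℂ} (hW : W ∈ Om ι) :
    LL A (fun W => (W x).im) y W = -(if x = y then (W x).im else 0) := by
  have h1 : ∀ W ∈ Om ι, HV A (fun W => (W x).im) y W = (fun _ : ι → ℂ => (0 : ℝ)) W := by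
    intro W _
    unfold HV
    rw [DV_im, mul_zero]
  have h2 : DV (HV A (fun W => (W x).im) y) y W = DV (fun _ : ι → ℂ => (0 : ℝ)) y W :=
    DD_congr h1 _ hW
  have h3 : DV (fun _ : ι → ℂ => (0 : ℝ)) y W = 0 := by
    unfold DV
    simp
  unfold LL
  rw [h2, h3, DE_im]
  by_cases h : x = y
  · subst h
    simp
  · simp [h]

theorem DV_imim (x z y : ι) (W : ι → ℂ) : DV (fun W => (W x).im * (W z).im) y W = 0 := by
  have h : DV (fun W => (W x).im * (W z).im) y W =
      (W x).im * DV (fun W => (W z).im) y W + (W z).im * DV (fun W => (W x).im) y W :=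
    DD_mul ((contDiff_imc (n := 1) x).differentiable one_ne_zero W)
      ((contDiff_imc (n := 1) z).differentiable one_ne_zero W)
  rw [h, DV_im, DV_im]
  ring

theorem LL_imim (hA : A.IsSymm) (x z y : ι) {W : ι → ℂ} (hW : W ∈ Om ι) :
    LL A (fun W => (W x).im * (W z).im) y W =
      -(((if x = y then 1 else 0) + (if z = y then 1 else 0)) * ((W x).im * (W z).im)) := by
  rw [LL_mul hA (contDiff_imc x).contDiffOn (contDiff_imc z).contDiffOn y hW, LL_im hA x y hW,
    LL_im hA z y hW, DV_im, DV_im]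
  by_cases h1 : x = y <;> by_cases h2 : z = y <;> simp [h1, h2] <;> ring

/-- **the generator on `T_xz`** -/
theorem LL_TT (hA : A.IsSymm) (x z y : ι) {W : ι → ℂ} (hW : W ∈ Om ι) :
    LL A (TT A x z) y W = TT A x y W * TT A y z W / MM A y W -
      ((if x = y then 1 else 0) + (if z = y then 1 else 0)) * TT A x z W := by
  have e : TT A x z = fun W : ι → ℂ => ((W x).im * (W z).im) * KK A W x z := rfl
  rw [e, LL_mul hA ((contDiff_imc x).mul (contDiff_imc z)).contDiffOn (contDiffOn_KK hA x z) y hW,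
    LL_imim hA x z y hW, LL_KK hA x z y hW, DV_imim]
  have hm := (mm_pos hA hW y).ne'
  have hy := (hW y).ne
  unfold TT MM
  field_simp
  ring

theorem LL_NN (hA : A.IsSymm) (w : ι → ℝ) (x y : ι) {W : ι → ℂ} (hW : W ∈ Om ι) :
    LL A (NN A w x) y W = TT A x y W * (NN A w y W / MM A y W - w y) -
      (if x = y then 1 else 0) * NN A w x W := by
  have e : NN A w x = fun W : ι → ℂ => ∑ z, w z * TT A x z W := by
    funext W
    unfold NN
    exact Finset.sum_congr rfl fun z _ => mul_comm _ _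
  rw [e, LL_sum hA (fun z _ => contDiffOn_const.mul (contDiffOn_TT hA x z)) y hW]
  have e2 : ∀ z ∈ (Finset.univ : Finset ι), LL A (fun W => w z * TT A x z W) y W =
      TT A x y W / MM A y W * (TT A y z W * w z) -
        (if x = y then 1 else 0) * (w z * TT A x z W) -
        (if z = y then w z * TT A x z W else 0) := by
    intro z _
    rw [LL_const_mul hA (contDiffOn_TT hA x z) (w z) y hW, LL_TT hA x z y hW]
    by_cases h2 : z = y
    · simp only [h2, if_true]
      ring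
    · simp only [h2, if_false]
      ring
  rw [Finset.sum_congr rfl e2, Finset.sum_sub_distrib, Finset.sum_sub_distrib, ← Finset.mul_sum,
    ← Finset.mul_sum, Finset.sum_ite_eq' Finset.univ y, if_pos (Finset.mem_univ y)]
  unfold NN
  ring

theorem LL_MM (hA : A.IsSymm) (x y : ι) {W : ι → ℂ} (hW : W ∈ Om ι) :
    LL A (MM A x) y W = -((if x = y then 1 else 0) * MM A x W) := by
  have e : MM A x = fun W : ι → ℂ => (W x).im * (I * Gr A W x x).re := by
    funext W
    unfold MM mm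
    simp
  have h1 := contDiffOn_reGr (n := 2) hA x x I
  have h2 : LL A (MM A x) y W = (W x).im * 0 +
      (I * Gr A W x x).re * -(if x = y then (W x).im else 0) +
      -(W y).im / mm A W y * (0 * DV (fun W => (I * Gr A W x x).re) y W) := by
    rw [e, LL_mul hA (contDiff_imc x).contDiffOn h1 y hW, LL_Gr hA x x y I hW, LL_im hA x y hW,
      DV_im]
  rw [h2]
  unfold MM mm
  by_cases h : x = y
  · subst h
    simp
    ring
  · simp [h]

/-- **the generator on `M ψ(N/M)`** -/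
theorem LL_body (hA : A.IsSymm) {N M : (ι → ℂ) → ℝ} (hN : ContDiffOn ℝ 2 N (Om ι))
    (hM : ContDiffOn ℝ 2 M (Om ι)) (hM0 : ∀ W ∈ Om ι, 0 < M W) {J : Set ℝ} {ψ ψ1 ψ2 : ℝ → ℝ}
    (hJ : ∀ W ∈ Om ι, N W / M W ∈ J) (h1 : ∀ u ∈ J, HasDerivAt ψ (ψ1 u) u)
    (h2 : ∀ u ∈ J, HasDerivAt ψ1 (ψ2 u) u)
    (hψ : ContDiffOn ℝ 2 (fun W => ψ (N W / M W)) (Om ι)) (y : ι)
    {W : ι → ℂ} (hW : W ∈ Om ι) :
    LL A (fun W => M W * ψ (N W / M W)) y W =
      ψ (N W / M W) * LL A M y W +
        ψ1 (N W / M W) * (LL A N y W - N W / M W * LL A M y W) +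
        -(W y).im / (2 * mm A W y) *
          (M W * (ψ2 (N W / M W) * DV (fun W => N W / M W) y W ^ 2)) := by
  have hu : ContDiffOn ℝ 2 (fun W => N W / M W) (Om ι) :=
    hN.div hM fun W hW => (hM0 W hW).ne'
  -- `N = u M`
  have eN : LL A N y W = LL A (fun W => (N W / M W) * M W) y W :=
    LL_congr (fun W hW => (div_mul_cancel₀ _ (hM0 W hW).ne').symm) y hW
  rw [LL_mul hA hu hM y hW] at eN
  have e1 := LL_mul hA hM hψ y hW
  have e2 := LL_comp hA hu hJ h1 h2 y hW
  have e3 : DV (fun W => ψ (N W / M W)) y W =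
      ψ1 (N W / M W) * DV (fun W => N W / M W) y W :=
    DD_comp (diffAt hu two_ne_zero hW) (h1 _ (hJ W hW))
  rw [e1, e2, e3, eN]
  have hm := (mm_pos hA hW y).ne'
  have := (hM0 W hW).ne'
  field_simp
  ring

/-! ### the gradient of `u = N_x / M_x` (292, (G3)) -/

theorem DV_TT (hA : A.IsSymm) (x z y : ι) {W : ι → ℂ} (hW : W ∈ Om ι) :
    DV (TT A x z) y W = -(2 * ((W x).im * (W z).im) *
      (conj (Gr A W x z) * (Gr A W x y * Gr A W y z)).re) := by
  have e : TT A x z = fun W : ι → ℂ => ((W x).im * (W z).im) *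
      (((1 * Gr A W x z).re * (1 * Gr A W x z).re) +
        ((-I * Gr A W x z).re * (-I * Gr A W x z).re)) := by
    funext W
    unfold TT KK
    rw [Complex.sq_norm, Complex.normSq_apply]
    simp
  have d1 := diffAt (contDiffOn_reGr (n := 1) hA x z 1) one_ne_zero hW
  have d2 := diffAt (contDiffOn_reGr (n := 1) hA x z (-I)) one_ne_zero hW
  have d0 : DifferentiableAt ℝ (fun W : ι → ℂ => (W x).im * (W z).im) W :=
    ((contDiff_imc (n := 1) x).mul (contDiff_imc z)).differentiable one_ne_zero W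
  have h1 : DV (TT A x z) y W = ((W x).im * (W z).im) *
      DV (fun W => ((1 * Gr A W x z).re * (1 * Gr A W x z).re) +
        ((-I * Gr A W x z).re * (-I * Gr A W x z).re)) y W +
      (((1 * Gr A W x z).re * (1 * Gr A W x z).re) +
        ((-I * Gr A W x z).re * (-I * Gr A W x z).re)) *
        DV (fun W : ι → ℂ => (W x).im * (W z).im) y W := by
    rw [e]
    exact DD_mul d0 ((d1.mul d1).add (d2.mul d2))
  have h2 : DV (fun W => ((1 * Gr A W x z).re * (1 * Gr A W x z).re) +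
        ((-I * Gr A W x z).re * (-I * Gr A W x z).re)) y W =
      DV (fun W => (1 * Gr A W x z).re * (1 * Gr A W x z).re) y W +
        DV (fun W => (-I * Gr A W x z).re * (-I * Gr A W x z).re) y W :=
    DD_add (d1.mul d1) (d2.mul d2)
  have h3 : DV (fun W => (1 * Gr A W x z).re * (1 * Gr A W x z).re) y W =
      (1 * Gr A W x z).re * DV (fun W => (1 * Gr A W x z).re) y W +
        (1 * Gr A W x z).re * DV (fun W => (1 * Gr A W x z).re) y W := DD_mul d1 d1
  have h4 : DV (fun W => (-I * Gr A W x z).re * (-I * Gr A W x z).re) y W =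
      (-I * Gr A W x z).re * DV (fun W => (-I * Gr A W x z).re) y W +
        (-I * Gr A W x z).re * DV (fun W => (-I * Gr A W x z).re) y W := DD_mul d2 d2
  rw [h1, DV_imim, h2, h3, h4, DV_Gr hA hW, DV_Gr hA hW]
  obtain ⟨g, hg⟩ : ∃ g : ℂ, g = Gr A W x y * Gr A W y z := ⟨_, rfl⟩
  rw [← hg]
  simp only [one_mul, Complex.mul_re, Complex.mul_im, Complex.neg_re, Complex.neg_im,
    Complex.I_re, Complex.I_im, Complex.conj_re, Complex.conj_im]
  ring

theorem DV_NN (hA : A.IsSymm) (w : ι → ℝ) (x y : ι) {W : ι → ℂ} (hW : W ∈ Om ι) :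
    DV (NN A w x) y W = -(2 * ∑ z, (W x).im * (W z).im * w z *
      (conj (Gr A W x z) * (Gr A W x y * Gr A W y z)).re) := by
  have h1 : DV (NN A w x) y W = ∑ z, DV (fun W => TT A x z W * w z) y W :=
    DD_sum fun z _ => (diffAt (contDiffOn_TT (n := 1) hA x z) one_ne_zero hW).mul_const _
  rw [h1, Finset.mul_sum, ← Finset.sum_neg_distrib]
  refine Finset.sum_congr rfl fun z _ => ?_
  have h2 : DV (fun W => w z * TT A x z W) y W = w z * DV (TT A x z) y W :=
    DD_const_mul (w z) (diffAt (contDiffOn_TT (n := 1) hA x z) one_ne_zero hW)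
  have h3 : (fun W => TT A x z W * w z) = fun W => w z * TT A x z W := by
    funext W; ring
  rw [h3, h2, DV_TT hA x z y hW]
  ring

theorem MM_fun (hA : A.IsSymm) (x : ι) : ∀ W ∈ Om ι, MM A x W = NN A (fun _ => 1) x W := by
  intro W hW
  rw [MM_eq hA hW]
  unfold NN
  simp

/-- weighted Cauchy-Schwarz -/
theorem cs_sum {α : Type*} (s : Finset α) (c a b : α → ℝ) (hc : ∀ i ∈ s, 0 ≤ c i)
    (ha : ∀ i ∈ s, 0 ≤ a i) (hb : ∀ i ∈ s, 0 ≤ b i) :
    (∑ i ∈ s, c i * (a i * b i)) ^ 2 ≤ (∑ i ∈ s, c i * a i ^ 2) * ∑ i ∈ s, c i * b i ^ 2 := by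
  have h := Finset.sum_mul_sq_le_sq_mul_sq s (fun i => Real.sqrt (c i) * a i)
    (fun i => Real.sqrt (c i) * b i)
  have e1 : ∑ i ∈ s, (Real.sqrt (c i) * a i) * (Real.sqrt (c i) * b i) =
      ∑ i ∈ s, c i * (a i * b i) := by
    refine Finset.sum_congr rfl fun i hi => ?_
    calc _ = (Real.sqrt (c i) * Real.sqrt (c i)) * (a i * b i) := by ring
      _ = _ := by rw [Real.mul_self_sqrt (hc i hi)]
  have e2 : ∀ f : α → ℝ, ∑ i ∈ s, (Real.sqrt (c i) * f i) ^ 2 = ∑ i ∈ s, c i * f i ^ 2 := by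
    intro f
    refine Finset.sum_congr rfl fun i hi => ?_
    rw [mul_pow, Real.sq_sqrt (hc i hi)]
  rw [e1, e2, e2] at h
  exact h

/-- **(G3)**: `(e_y / (2 m_y)) M_x (∂_v u)² ≤ 4 u T_xy (P_y w + u)`, `u = N_x / M_x` -/
theorem grad_u (hA : A.IsSymm) {w : ι → ℝ} (hw : ∀ z, 0 ≤ w z) (x y : ι) {W : ι → ℂ}
    (hW : W ∈ Om ι) :
    -(W y).im / (2 * mm A W y) *
        (MM A x W * DV (fun W => NN A w x W / MM A x W) y W ^ 2) ≤
      4 * (NN A w x W / MM A x W) * TT A x y W *
        (NN A w y W / MM A y W + NN A w x W / MM A x W) := by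
  have hMx := MM_pos hA hW x
  have hMy := MM_pos hA hW y
  have hmy := mm_pos hA hW y
  have hNx := NN_nonneg (A := A) hw hW x
  have hNy := NN_nonneg (A := A) hw hW y
  obtain ⟨u, hu⟩ : ∃ u : ℝ, u = NN A w x W / MM A x W := ⟨_, rfl⟩
  have hu0 : 0 ≤ u := by rw [hu]; positivity
  have huM : u * MM A x W = NN A w x W := by rw [hu]; field_simp
  obtain ⟨d, hd⟩ : ∃ d : ℝ, d = DV (fun W => NN A w x W / MM A x W) y W := ⟨_, rfl⟩
  -- `M d = DV N - u DV M`
  have hdN := diffAt (contDiffOn_NN (n := 1) hA w x) one_ne_zero hW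
  have hdM := diffAt (contDiffOn_MM (n := 1) hA x) one_ne_zero hW
  have hdu : DifferentiableAt ℝ (fun W => NN A w x W / MM A x W) W :=
    diffAt ((contDiffOn_NN (n := 1) hA w x).div (contDiffOn_MM hA x)
      fun W hW => (MM_pos hA hW x).ne') one_ne_zero hW
  have h1 : DV (NN A w x) y W = u * DV (MM A x) y W + MM A x W * d := by
    have e1 : DV (NN A w x) y W = DV (fun W => (NN A w x W / MM A x W) * MM A x W) y W :=
      DD_congr (fun W hW => (div_mul_cancel₀ _ (MM_pos hA hW x).ne').symm) _ hW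
    have e2 : DV (fun W => (NN A w x W / MM A x W) * MM A x W) y W =
        (NN A w x W / MM A x W) * DV (MM A x) y W +
          MM A x W * DV (fun W => NN A w x W / MM A x W) y W := DD_mul hdu hdM
    rw [e1, e2, ← hu, ← hd]
  have h2 : DV (MM A x) y W = DV (NN A (fun _ => 1) x) y W := DD_congr (MM_fun hA x) _ hW
  rw [h2, DV_NN hA, DV_NN hA] at h1
  swap; · exact hW
  swap; · exact hW
  obtain ⟨S, hS⟩ : ∃ S : ℝ, S = ∑ z, ((-(W z).im) * (w z + u)) *
      (‖Gr A W x z‖ * ‖Gr A W y z‖) := ⟨_, rfl⟩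
  have ex := hW x
  have hMd : |MM A x W * d| ≤ 2 * (-(W x).im) * ‖Gr A W x y‖ * S := by
    have e3 : MM A x W * d = ∑ z, -(2 * ((W x).im * (W z).im) * (w z - u) *
        (conj (Gr A W x z) * (Gr A W x y * Gr A W y z)).re) := by
      have : MM A x W * d = -(2 * ∑ z, (W x).im * (W z).im * w z *
          (conj (Gr A W x z) * (Gr A W x y * Gr A W y z)).re) +
          u * (2 * ∑ z, (W x).im * (W z).im * 1 *
          (conj (Gr A W x z) * (Gr A W x y * Gr A W y z)).re) := by linarith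
      rw [this, Finset.mul_sum, Finset.mul_sum, Finset.mul_sum, ← Finset.sum_neg_distrib,
        ← Finset.sum_add_distrib]
      exact Finset.sum_congr rfl fun z _ => by ring
    rw [e3, hS, Finset.mul_sum]
    refine (Finset.abs_sum_le_sum_abs _ _).trans (Finset.sum_le_sum fun z _ => ?_)
    have ez := hW z
    have h3 : |(conj (Gr A W x z) * (Gr A W x y * Gr A W y z)).re| ≤
        ‖Gr A W x z‖ * (‖Gr A W x y‖ * ‖Gr A W y z‖) := by
      refine (Complex.abs_re_le_norm _).trans (le_of_eq ?_)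
      rw [norm_mul, norm_mul, Complex.norm_conj]
    have h4 : |w z - u| ≤ w z + u := by
      rw [abs_le]
      constructor <;> linarith [hw z]
    rw [abs_neg, abs_mul, abs_mul, abs_of_nonneg
      (by nlinarith : (0 : ℝ) ≤ 2 * ((W x).im * (W z).im))]
    calc 2 * ((W x).im * (W z).im) * |w z - u| *
          |(conj (Gr A W x z) * (Gr A W x y * Gr A W y z)).re|
        ≤ 2 * ((W x).im * (W z).im) * (w z + u) *
          (‖Gr A W x z‖ * (‖Gr A W x y‖ * ‖Gr A W y z‖)) := by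
          have h5 : 0 ≤ 2 * ((W x).im * (W z).im) := by nlinarith
          exact mul_le_mul (mul_le_mul_of_nonneg_left h4 h5) h3 (abs_nonneg _)
            (mul_nonneg h5 (by linarith [hw z]))
      _ = 2 * (-(W x).im) * ‖Gr A W x y‖ * ((-(W z).im) * (w z + u) *
          (‖Gr A W x z‖ * ‖Gr A W y z‖)) := by ring
  have hS0 : 0 ≤ S := by
    rw [hS]
    refine Finset.sum_nonneg fun z _ => ?_
    have ez := hW z
    have := hw z
    have : 0 ≤ -(W z).im := by linarith
    positivity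
  have hCS : S ^ 2 ≤ (∑ z, ((-(W z).im) * (w z + u)) * ‖Gr A W x z‖ ^ 2) *
      ∑ z, ((-(W z).im) * (w z + u)) * ‖Gr A W y z‖ ^ 2 := by
    rw [hS]
    refine cs_sum Finset.univ _ _ _ (fun z _ => ?_) (fun z _ => norm_nonneg _)
      (fun z _ => norm_nonneg _)
    have ez := hW z
    have := hw z
    exact mul_nonneg (by linarith) (by linarith)
  have hsum : ∀ a : ι, (-(W a).im) * ∑ z, ((-(W z).im) * (w z + u)) * ‖Gr A W a z‖ ^ 2 =
      NN A w a W + u * MM A a W := by
    intro a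
    rw [MM_eq hA hW, NN, Finset.mul_sum, Finset.mul_sum, ← Finset.sum_add_distrib]
    refine Finset.sum_congr rfl fun z _ => ?_
    unfold TT KK
    ring
  have hx := hsum x
  have hy := hsum y
  rw [← huM] at hx
  -- final computation
  have hsq : (MM A x W * d) ^ 2 ≤ (2 * (-(W x).im) * ‖Gr A W x y‖) ^ 2 * S ^ 2 := by
    rw [← mul_pow, ← sq_abs (MM A x W * d)]
    exact pow_le_pow_left₀ (abs_nonneg _) hMd 2
  obtain ⟨a1, ha1⟩ : ∃ a1 : ℝ, a1 = ∑ z, ((-(W z).im) * (w z + u)) * ‖Gr A W x z‖ ^ 2 := ⟨_, rfl⟩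
  obtain ⟨a2, ha2⟩ : ∃ a2 : ℝ, a2 = ∑ z, ((-(W z).im) * (w z + u)) * ‖Gr A W y z‖ ^ 2 := ⟨_, rfl⟩
  rw [← ha1] at hx
  rw [← ha2] at hy
  rw [← ha1, ← ha2] at hCS
  have ey := hW y
  have hfin : (MM A x W * d) ^ 2 * (-(W y).im) ≤
      8 * (u * MM A x W) * ((-(W x).im) * KK A W x y) * (NN A w y W + u * MM A y W) := by
    calc (MM A x W * d) ^ 2 * (-(W y).im)
        ≤ ((2 * (-(W x).im) * ‖Gr A W x y‖) ^ 2 * (a1 * a2)) * (-(W y).im) := by
          refine mul_le_mul_of_nonneg_right (hsq.trans ?_) (by linarith)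
          exact mul_le_mul_of_nonneg_left hCS (sq_nonneg _)
      _ = 4 * ((-(W x).im) * a1) * ((-(W x).im) * ‖Gr A W x y‖ ^ 2) * ((-(W y).im) * a2) := by
          ring
      _ = 8 * (u * MM A x W) * ((-(W x).im) * KK A W x y) * (NN A w y W + u * MM A y W) := by
          rw [hx, hy]
          unfold KK
          ring
  rw [← hu, ← hd]
  have hkey : (-(W y).im / (2 * mm A W y) * (MM A x W * d ^ 2)) * (2 * mm A W y * MM A x W) =
      (MM A x W * d) ^ 2 * (-(W y).im) := by
    field_simp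
  have hkey2 : (4 * u * TT A x y W * (NN A w y W / MM A y W + u)) *
      (2 * mm A W y * MM A x W) =
      8 * (u * MM A x W) * ((-(W x).im) * KK A W x y) * (NN A w y W + u * MM A y W) := by
    unfold TT MM
    have h7 : (W y).im ≠ 0 := ey.ne
    field_simp
    ring
  have hpos : 0 < 2 * mm A W y * MM A x W := by positivity
  refine le_of_mul_le_mul_right ?_ hpos
  rw [hkey, hkey2]
  exact hfin

end P365H878
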