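import Vale.Agent.P365.T2.H417.GenLL
import Vale.Agent.P365.T2.H878.LL2

/-!
# P365 T2: the flux of the one-body entropy

`HV A Ups y W = e_y (th1 + th2)`: `th1` the angular derivative of the numerators with the frozen
multiplier `G'(u)`, `th2` that of the row masses with `G - u G'`.
-/

set_option linter.all false

namespace P365H878

open P365L P365O P365T1 Matrix Complex MeasureTheory Filter Topology Set
open Vale.Agent.P365.T2.H789
open Vale.Agent.P365.T2.H417 (tT tU HV_of_gen gen_Ups gen_ups)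
open P365T2.H844 P365T2.H37
open scoped ComplexConjugate RealInnerProductSpace

variable {ι : Type*} [DecidableEq ι] [Fintype ι] {A : Matrix ι ι ℝ}
variable {E : Type*} [NormedAddCommGroup E] [InnerProductSpace ℝ E] (Φ : ι → E)

/-- flux of one summand -/
theorem HV_ups_term (hA : A.IsSymm) {ε : ℝ} (hε : 0 < ε) (J k : ℕ) (x y : ι) {W : ι → ℂ}
    (hW : W ∈ Om ι) :
    HV A (fun W => rho k * pr (P365T2.H844.TT A W) x *
      Gf ε (ur Φ (P365T2.H844.TT A W) J k x)) y W =
      -(W y).im * tU Φ A W ε J k y x :=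
  HV_of_gen hA (gen_ups Φ hA hε J k y x)
    (P365L.T2.Path.contDiffOn_ups_term (n := 2) hA J k x hε) two_ne_zero hW

/-- flux of the entropy -/
theorem HV_Ups (hA : A.IsSymm) {ε : ℝ} (hε : 0 < ε) (J : ℕ) (y : ι) {W : ι → ℂ}
    (hW : W ∈ Om ι) :
    HV A (fun W => ∑ x, ∑ k ∈ Finset.range (J + 2), rho k * pr (P365T2.H844.TT A W) x *
      Gf ε (ur Φ (P365T2.H844.TT A W) J k x)) y W =
      -(W y).im * ∑ x, ∑ k ∈ Finset.range (J + 2), tU Φ A W ε J k y x :=
  HV_of_gen hA (gen_Ups Φ hA hε J y)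
    (ContDiffOn.sum fun x _ => ContDiffOn.sum fun k _ =>
      P365L.T2.Path.contDiffOn_ups_term (n := 2) hA J k x hε) two_ne_zero hW

/-- numerator part and mass part of the angular derivative -/
theorem tU_eq (A : Matrix ι ι ℝ) (W : ι → ℂ) (ε : ℝ) (J k : ℕ) (y x : ι) :
    tU Φ A W ε J k y x =
      Gf1 ε (ur Φ (P365T2.H844.TT A W) J k x) * (∑ b, wk J k (tt Φ x b) * tT A W y x b) +
      rho k * (Gf ε (ur Φ (P365T2.H844.TT A W) J k x) -
        ur Φ (P365T2.H844.TT A W) J k x * Gf1 ε (ur Φ (P365T2.H844.TT A W) J k x)) *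
        ∑ b, tT A W y x b := by
  have hr := (rho_pos k).ne'
  have e : rho k * (∑ b, (wk J k (tt Φ x b) / rho k) * tT A W y x b) =
      ∑ b, wk J k (tt Φ x b) * tT A W y x b := by
    rw [Finset.mul_sum]
    refine Finset.sum_congr rfl fun b _ => ?_
    field_simp
  unfold tU
  rw [mul_add, mul_left_comm, e]
  ring

/-- **the bridge** -/
theorem HV_Ups_th (hA : A.IsSymm) {ε : ℝ} (hε : 0 < ε) (J : ℕ) (y : ι) {W : ι → ℂ}
    (hW : W ∈ Om ι) :
    HV A (fun W => ∑ x, ∑ k ∈ Finset.range (J + 2), rho k * pr (P365T2.H844.TT A W) x *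
      Gf ε (ur Φ (P365T2.H844.TT A W) J k x)) y W =
      -(W y).im *
        ((∑ x, ∑ k ∈ Finset.range (J + 2), Gf1 ε (ur Φ (P365T2.H844.TT A W) J k x) *
            ∑ b, wk J k (tt Φ x b) * tT A W y x b) +
          ∑ x, ∑ k ∈ Finset.range (J + 2),
            rho k * (Gf ε (ur Φ (P365T2.H844.TT A W) J k x) -
              ur Φ (P365T2.H844.TT A W) J k x * Gf1 ε (ur Φ (P365T2.H844.TT A W) J k x)) *
            ∑ b, tT A W y x b) := by
  rw [HV_Ups Φ hA hε J y hW]
  congr 1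
  rw [← Finset.sum_add_distrib]
  refine Finset.sum_congr rfl fun x _ => ?_
  rw [← Finset.sum_add_distrib]
  exact Finset.sum_congr rfl fun k _ => tU_eq Φ A W ε J k y x

/-- with the sign of the entropy `Ups` of helper844 -/
theorem HV_negUps_th (hA : A.IsSymm) {ε : ℝ} (hε : 0 < ε) (J : ℕ) (y : ι) {W : ι → ℂ}
    (hW : W ∈ Om ι) :
    HV A (fun W => -∑ x, ∑ k ∈ Finset.range (J + 2), rho k * pr (P365T2.H844.TT A W) x *
      Gf ε (ur Φ (P365T2.H844.TT A W) J k x)) y W =
      -(-(W y).im *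
        ((∑ x, ∑ k ∈ Finset.range (J + 2), Gf1 ε (ur Φ (P365T2.H844.TT A W) J k x) *
            ∑ b, wk J k (tt Φ x b) * tT A W y x b) +
          ∑ x, ∑ k ∈ Finset.range (J + 2),
            rho k * (Gf ε (ur Φ (P365T2.H844.TT A W) J k x) -
              ur Φ (P365T2.H844.TT A W) J k x * Gf1 ε (ur Φ (P365T2.H844.TT A W) J k x)) *
            ∑ b, tT A W y x b)) := by
  have h1 := HV_of_gen hA (gen_Ups Φ hA hε J y).neg
    (P365L.T2.Path.contDiffOn_Ups (n := 2) hA J hε) two_ne_zero hW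
  rw [h1, ← HV_Ups_th Φ hA hε J y hW, HV_Ups Φ hA hε J y hW]
  ring

end P365H878
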