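import Vale.Agent.P365.T2.H878.Ker
import Mathlib.Analysis.Calculus.ParametricIntegral
import Mathlib.MeasureTheory.Integral.IntegralEqImproper

set_option linter.all false

/-!
# P365 T2 / H878 / Gen1: Green's formula on the half plane, one complex variable.

`F x y`: `x` = real part of the potential, `y` = absorption (`potential = x - i y`).
-/

namespace P365H878

open MeasureTheory ProbabilityTheory Set Filter
open scoped Real Topology

/-- the class of admissible functions of one complex variable -/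
structure Nice (F Fx Fy Fxx Fyy : ℝ → ℝ → ℝ) (y0 C : ℝ) : Prop where
  hy0 : 0 ≤ y0
  hC : 0 ≤ C
  mF : Measurable (Function.uncurry F)
  mFx : Measurable (Function.uncurry Fx)
  mFy : Measurable (Function.uncurry Fy)
  mFxx : Measurable (Function.uncurry Fxx)
  mFyy : Measurable (Function.uncurry Fyy)
  dx : ∀ x y, y0 < y → HasDerivAt (fun t => F t y) (Fx x y) x
  dxx : ∀ x y, y0 < y → HasDerivAt (fun t => Fx t y) (Fxx x y) x
  dy : ∀ x y, y0 < y → HasDerivAt (fun t => F x t) (Fy x y) y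
  dyy : ∀ x y, y0 < y → HasDerivAt (fun t => Fy x t) (Fyy x y) y
  b0 : ∀ x y, y0 < y → |F x y| ≤ C
  bx : ∀ x y, y0 < y → |Fx x y| ≤ C
  by' : ∀ x y, y0 < y → |Fy x y| ≤ C / y ^ 2
  bxx : ∀ x y, y0 < y → |Fxx x y| ≤ C / y ^ 2
  byy : ∀ x y, y0 < y → |Fyy x y| ≤ C / y ^ 2

variable {F Fx Fy Fxx Fyy : ℝ → ℝ → ℝ} {y0 C : ℝ}

theorem msec {H : ℝ → ℝ → ℝ} (h : Measurable (Function.uncurry H)) (y : ℝ) :
    Measurable fun x => H x y :=
  h.comp (measurable_id.prodMk measurable_const)

/-- products with a kernel are integrable -/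
theorem int_mul {f k : ℝ → ℝ} {a B K : ℝ} (ha : 0 < a) (hf : Measurable f) (hk : Measurable k)
    (hfB : ∀ x, |f x| ≤ B) (hkK : ∀ x, |k x| ≤ K * qk a x) : Integrable fun x => f x * k x := by
  refine Integrable.mono' (((integrable_qk ha).const_mul K).const_mul B)
    (hf.mul hk).aestronglyMeasurable (Eventually.of_forall fun x => ?_)
  rw [Real.norm_eq_abs, abs_mul]
  exact mul_le_mul (hfB x) (hkK x) (abs_nonneg _) ((abs_nonneg _).trans (hfB x))

theorem abs_PK_le {g : ℝ} (hg : 0 < g) (x : ℝ) : |PK g x| ≤ g * qk g x := by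
  rw [abs_of_nonneg (PK_nonneg hg x)]
  exact PK_le hg x

theorem abs_PKg_le' {g : ℝ} (hg : 0 < g) (x : ℝ) : |PKg g x| ≤ 1 * qk g x :=
  (abs_PKg_le hg x).trans (mul_le_mul_of_nonneg_right pi_inv_le_one (qk_pos hg x).le)

theorem abs_PKx_le' {g : ℝ} (hg : 0 < g) (x : ℝ) : |PKx g x| ≤ 1 * qk g x := by
  rw [one_mul]; exact abs_PKx_le hg x

/-- integration by parts in `x` -/
theorem int_by_parts (N : Nice F Fx Fy Fxx Fyy y0 C) {a y : ℝ} (ha : 0 < a) (hy : y0 < y) :
    ∫ x, F x y * PKxx a x = ∫ x, Fxx x y * PK a x := by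
  have m1 := msec N.mF y
  have m2 := msec N.mFx y
  have m3 := msec N.mFxx y
  have e1 : ∫ x, F x y * PKxx a x = -∫ x, Fx x y * PKx a x := by
    refine integral_mul_deriv_eq_deriv_mul_of_integrable (u := fun x => F x y)
      (v := PKx a) (u' := fun x => Fx x y) (v' := PKxx a) (fun x _ => N.dx x y hy)
      (fun x _ => hasDerivAt_PKx_x ha x) ?_ ?_ ?_
    · exact int_mul ha m1 (measurable_PKxx a) (fun x => N.b0 x y hy) (abs_PKxx_le ha)
    · exact int_mul ha m2 (measurable_PKx a) (fun x => N.bx x y hy) (abs_PKx_le' ha)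
    · exact int_mul ha m1 (measurable_PKx a) (fun x => N.b0 x y hy) (abs_PKx_le' ha)
  have e2 : ∫ x, Fx x y * PKx a x = -∫ x, Fxx x y * PK a x := by
    refine integral_mul_deriv_eq_deriv_mul_of_integrable (u := fun x => Fx x y)
      (v := PK a) (u' := fun x => Fxx x y) (v' := PKx a) (fun x _ => N.dxx x y hy)
      (fun x _ => hasDerivAt_PK_x ha x) ?_ ?_ ?_
    · exact int_mul ha m2 (measurable_PKx a) (fun x => N.bx x y hy) (abs_PKx_le' ha)
    · exact int_mul ha m3 (measurable_PK a) (fun x => N.bxx x y hy) (abs_PK_le ha)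
    · exact int_mul ha m2 (measurable_PK a) (fun x => N.bx x y hy) (abs_PK_le ha)
  rw [e1, e2, neg_neg]

/-- the flux through the line of height `Y + h` -/
noncomputable def JJG (F Fy : ℝ → ℝ → ℝ) (Y g h : ℝ) : ℝ :=
  ∫ x, (Fy x (Y + h) * PK (g + h) x - F x (Y + h) * PKg (g + h) x)

/-- the averaged Laplacian -/
noncomputable def DDG (Fxx Fyy : ℝ → ℝ → ℝ) (Y g h : ℝ) : ℝ :=
  ∫ x, (Fxx x (Y + h) + Fyy x (Y + h)) * PK (g + h) x

theorem int_JJ (N : Nice F Fx Fy Fxx Fyy y0 C) {Y g h : ℝ} (hg : 0 < g + h) (hY : y0 < Y + h) :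
    Integrable fun x => Fy x (Y + h) * PK (g + h) x - F x (Y + h) * PKg (g + h) x :=
  (int_mul hg (msec N.mFy _) (measurable_PK _) (fun x => N.by' x _ hY) (abs_PK_le hg)).sub
    (int_mul hg (msec N.mF _) (measurable_PKg _) (fun x => N.b0 x _ hY) (abs_PKg_le' hg))

theorem qk_le_half {g a : ℝ} (hg : 0 < g) (ha : g / 2 ≤ a) (x : ℝ) : qk a x ≤ qk (g / 2) x :=
  qk_anti (by positivity) ha x

/-- **the flux has derivative the averaged Laplacian** -/
theorem hasDerivAt_JJ (N : Nice F Fx Fy Fxx Fyy y0 C) {Y g h : ℝ} (hg : 0 < g) (hY : y0 < Y)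
    (hh : 0 ≤ h) : HasDerivAt (JJG F Fy Y g) (DDG Fxx Fyy Y g h) h := by
  have hY0 : 0 < Y := N.hy0.trans_lt hY
  have hC := N.hC
  obtain ⟨ε, hε, hε1, hε2⟩ : ∃ ε : ℝ, 0 < ε ∧ ε ≤ g / 2 ∧ ε ≤ (Y - y0) / 2 :=
    ⟨min (g / 2) ((Y - y0) / 2), lt_min (by positivity) (by linarith), min_le_left _ _,
      min_le_right _ _⟩
  have hs : ∀ h' ∈ Ioo (h - ε) (h + ε), g / 2 ≤ g + h' ∧ g + h' ≤ 2 * g + h ∧ Y / 2 ≤ Y + h' ∧
      y0 < Y + h' := by
    intro h' hh'
    have hy0 := N.hy0
    refine ⟨by linarith [hh'.1], by linarith [hh'.2], by linarith [hh'.1], by linarith [hh'.1]⟩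
  have key := hasDerivAt_integral_of_dominated_loc_of_deriv_le (μ := (volume : Measure ℝ))
    (F := fun h' x => Fy x (Y + h') * PK (g + h') x - F x (Y + h') * PKg (g + h') x)
    (F' := fun h' x => Fyy x (Y + h') * PK (g + h') x + F x (Y + h') * PKxx (g + h') x)
    (x₀ := h) (s := Ioo (h - ε) (h + ε))
    (bound := fun x => (C * (4 / Y ^ 2) * (2 * g + h) + C * (12 / g)) * qk (g / 2) x)
    (Ioo_mem_nhds (by linarith) (by linarith))
    (Filter.eventually_of_mem (Ioo_mem_nhds (show h - ε < h by linarith)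
      (show h < h + ε by linarith)) fun h' hh' => by
        obtain ⟨h1, h2, h3, h4⟩ := hs h' hh'
        exact (int_JJ N (by linarith) h4).aestronglyMeasurable)
    (int_JJ N (by linarith) (by linarith))
    (((msec N.mFyy _).mul (measurable_PK _)).add
      ((msec N.mF _).mul (measurable_PKxx _))).aestronglyMeasurable
    (Eventually.of_forall fun x h' hh' => ?_)
    ((integrable_qk (by positivity)).const_mul _)
    (Eventually.of_forall fun x h' hh' => ?_)
  · have e : DDG Fxx Fyy Y g h =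
        ∫ x, (Fyy x (Y + h) * PK (g + h) x + F x (Y + h) * PKxx (g + h) x) := by
      have hg' : 0 < g + h := by linarith
      have hY' : y0 < Y + h := by linarith
      have i1 := int_mul hg' (msec N.mFyy (Y + h)) (measurable_PK (g + h))
        (fun x => N.byy x _ hY') (abs_PK_le hg')
      have i2 := int_mul hg' (msec N.mFxx (Y + h)) (measurable_PK (g + h))
        (fun x => N.bxx x _ hY') (abs_PK_le hg')
      have i3 := int_mul hg' (msec N.mF (Y + h)) (measurable_PKxx (g + h))
        (fun x => N.b0 x _ hY') (abs_PKxx_le hg')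
      rw [integral_add i1 i3, int_by_parts N hg' hY', ← integral_add i1 i2]
      unfold DDG
      exact integral_congr_ae (Eventually.of_forall fun x => by simp only; ring)
    rw [e]
    exact key.2
  · obtain ⟨h1, h2, h3, h4⟩ := hs h' hh'
    have ha : 0 < g + h' := by linarith
    have hq := qk_le_half hg h1 x
    have hqp := qk_pos ha x
    have hqp2 := qk_pos (show 0 < g / 2 by positivity) x
    have hyy : |Fyy x (Y + h')| ≤ C * (4 / Y ^ 2) := by
      refine (N.byy x _ h4).trans ?_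
      rw [div_eq_mul_inv]
      refine mul_le_mul_of_nonneg_left ?_ hC
      have h5 : (Y / 2) ^ 2 ≤ (Y + h') ^ 2 := pow_le_pow_left₀ (by positivity) h3 2
      calc ((Y + h') ^ 2)⁻¹ ≤ ((Y / 2) ^ 2)⁻¹ := inv_anti₀ (by positivity) h5
        _ = 4 / Y ^ 2 := by field_simp; norm_num
    rw [Real.norm_eq_abs]
    refine (abs_add_le _ _).trans ?_
    rw [abs_mul, abs_mul, add_mul]
    refine add_le_add ?_ ?_
    · calc |Fyy x (Y + h')| * |PK (g + h') x| ≤ (C * (4 / Y ^ 2)) * ((g + h') * qk (g + h') x) :=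
            mul_le_mul hyy (abs_PK_le ha x) (abs_nonneg _) (by positivity)
        _ ≤ (C * (4 / Y ^ 2)) * ((2 * g + h) * qk (g / 2) x) := by
            refine mul_le_mul_of_nonneg_left ?_ (by positivity)
            exact mul_le_mul h2 hq hqp.le (by linarith)
        _ = C * (4 / Y ^ 2) * (2 * g + h) * qk (g / 2) x := by ring
    · calc |F x (Y + h')| * |PKxx (g + h') x| ≤ C * (6 / (g + h') * qk (g + h') x) :=
            mul_le_mul (N.b0 x _ h4) (abs_PKxx_le ha x) (abs_nonneg _) hC
        _ ≤ C * (12 / g * qk (g / 2) x) := by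
            refine mul_le_mul_of_nonneg_left ?_ hC
            refine mul_le_mul ?_ hq hqp.le (by positivity)
            rw [div_le_div_iff₀ ha hg]
            linarith
        _ = C * (12 / g) * qk (g / 2) x := by ring
  · obtain ⟨h1, h2, h3, h4⟩ := hs h' hh'
    have ha : 0 < g + h' := by linarith
    have d1 : HasDerivAt (fun t => Fy x (Y + t)) (Fyy x (Y + h')) h' :=
      (N.dyy x _ h4).comp_const_add Y h'
    have d2 : HasDerivAt (fun t => F x (Y + t)) (Fy x (Y + h')) h' :=
      (N.dy x _ h4).comp_const_add Y h'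
    have d3 : HasDerivAt (fun t => PK (g + t) x) (PKg (g + h') x) h' :=
      (hasDerivAt_PK_g ha x).comp_const_add g h'
    have d4 : HasDerivAt (fun t => PKg (g + t) x) (-PKxx (g + h') x) h' :=
      (hasDerivAt_PKg_g ha x).comp_const_add g h'
    refine ((d1.mul d3).sub (d2.mul d4)).congr_deriv ?_
    ring

theorem abs_DDG_le (N : Nice F Fx Fy Fxx Fyy y0 C) {Y g h : ℝ} (hg : 0 < g) (hY : y0 < Y)
    (hh : 0 ≤ h) : |DDG Fxx Fyy Y g h| ≤ 2 * C / (Y + h) ^ 2 := by
  have hg' : 0 < g + h := by linarith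
  have hY' : y0 < Y + h := by linarith
  have hC := N.hC
  unfold DDG
  have h1 : ‖∫ x, (Fxx x (Y + h) + Fyy x (Y + h)) * PK (g + h) x‖ ≤
      ∫ x, (2 * C / (Y + h) ^ 2) * PK (g + h) x := by
    refine norm_integral_le_of_norm_le ((integrable_PK hg').const_mul _)
      (Eventually.of_forall fun x => ?_)
    rw [Real.norm_eq_abs, abs_mul, abs_of_nonneg (PK_nonneg hg' x)]
    refine mul_le_mul_of_nonneg_right ?_ (PK_nonneg hg' x)
    refine (abs_add_le _ _).trans ?_
    have := N.bxx x _ hY'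
    have := N.byy x _ hY'
    calc _ ≤ C / (Y + h) ^ 2 + C / (Y + h) ^ 2 := by linarith
      _ = _ := by ring
  rwa [integral_const_mul, integral_PK hg', mul_one, Real.norm_eq_abs] at h1

theorem measurable_DDG (hxx : Measurable (Function.uncurry Fxx))
    (hyy : Measurable (Function.uncurry Fyy)) (Y g : ℝ) : Measurable (DDG Fxx Fyy Y g) := by
  have h1 : Measurable (Function.uncurry fun (h x : ℝ) =>
      (Fxx x (Y + h) + Fyy x (Y + h)) * PK (g + h) x) := by
    have a1 : Measurable fun p : ℝ × ℝ => Fxx p.2 (Y + p.1) :=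
      hxx.comp (measurable_snd.prodMk (measurable_fst.const_add Y))
    have a2 : Measurable fun p : ℝ × ℝ => Fyy p.2 (Y + p.1) :=
      hyy.comp (measurable_snd.prodMk (measurable_fst.const_add Y))
    have a3 : Measurable fun p : ℝ × ℝ => PK (g + p.1) p.2 := by
      unfold PK; fun_prop
    exact (a1.add a2).mul a3
  exact (h1.stronglyMeasurable.integral_prod_right).measurable

theorem integrable_inv_sq {Y : ℝ} (hY : 0 < Y) :
    IntegrableOn (fun h : ℝ => ((Y + h) ^ 2)⁻¹) (Ioi 0) := by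
  have h1 : ∀ h ∈ Ici (0 : ℝ), HasDerivAt (fun h : ℝ => -(Y + h)⁻¹) (((Y + h) ^ 2)⁻¹) h := by
    intro h hh
    have hp : Y + h ≠ 0 := by
      have : (0 : ℝ) ≤ h := hh
      positivity
    have h2 : HasDerivAt (fun h : ℝ => Y + h) 1 h := by
      simpa using (hasDerivAt_id h).const_add Y
    refine (h2.inv hp).neg.congr_deriv ?_
    simp only [neg_div, neg_neg, one_div]
  refine integrableOn_Ioi_deriv_of_nonneg' (l := 0) h1 (fun h _ => by positivity) ?_
  have h3 : Tendsto (fun h : ℝ => (Y + h)⁻¹) atTop (𝓝 0) :=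
    tendsto_inv_atTop_zero.comp (tendsto_atTop_add_const_left _ Y tendsto_id)
  simpa using h3.neg

theorem integrableOn_DDG (N : Nice F Fx Fy Fxx Fyy y0 C) {Y g : ℝ} (hg : 0 < g) (hY : y0 < Y) :
    IntegrableOn (DDG Fxx Fyy Y g) (Ioi 0) := by
  have hY0 : 0 < Y := N.hy0.trans_lt hY
  refine Integrable.mono' ((integrable_inv_sq hY0).const_mul (2 * C))
    (measurable_DDG N.mFxx N.mFyy Y g).aestronglyMeasurable ?_
  refine (ae_restrict_iff' measurableSet_Ioi).2 (Eventually.of_forall fun h hh => ?_)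
  rw [Real.norm_eq_abs]
  exact (abs_DDG_le N hg hY (le_of_lt hh)).trans (le_of_eq (div_eq_mul_inv _ _))

theorem abs_JJ_le (N : Nice F Fx Fy Fxx Fyy y0 C) {Y g h : ℝ} (hg : 0 < g) (hY : y0 < Y)
    (hh : 0 ≤ h) : |JJG F Fy Y g h| ≤ C / (Y + h) ^ 2 + C * (g + h)⁻¹ := by
  have hg' : 0 < g + h := by linarith
  have hY' : y0 < Y + h := by linarith
  have hC := N.hC
  have hpi := Real.pi_pos
  unfold JJG
  have h1 : ‖∫ x, (Fy x (Y + h) * PK (g + h) x - F x (Y + h) * PKg (g + h) x)‖ ≤
      ∫ x, ((C / (Y + h) ^ 2) * PK (g + h) x + C * (π⁻¹ * qk (g + h) x)) := by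
    refine norm_integral_le_of_norm_le (((integrable_PK hg').const_mul _).add
      (((integrable_qk hg').const_mul _).const_mul _)) (Eventually.of_forall fun x => ?_)
    rw [Real.norm_eq_abs]
    refine (abs_sub _ _).trans ?_
    rw [abs_mul, abs_mul, abs_of_nonneg (PK_nonneg hg' x)]
    exact add_le_add (mul_le_mul_of_nonneg_right (N.by' x _ hY') (PK_nonneg hg' x))
      (mul_le_mul (N.b0 x _ hY') (abs_PKg_le hg' x) (abs_nonneg _) hC)
  rw [integral_add ((integrable_PK hg').const_mul _) (((integrable_qk hg').const_mul _).const_mul _),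
    integral_const_mul, integral_PK hg', mul_one, integral_const_mul, integral_const_mul,
    integral_qk hg', Real.norm_eq_abs] at h1
  refine h1.trans (le_of_eq ?_)
  congr 2
  field_simp

/-- **Green's formula** -/
theorem green (N : Nice F Fx Fy Fxx Fyy y0 C) {Y g : ℝ} (hg : 0 < g) (hY : y0 < Y) :
    ∫ x, (F x Y * PKg g x - Fy x Y * PK g x) = ∫ h in Ioi 0, DDG Fxx Fyy Y g h := by
  have hY0 : 0 < Y := N.hy0.trans_lt hY
  have ht : Tendsto (JJG F Fy Y g) atTop (𝓝 0) := by
    refine squeeze_zero_norm' (a := fun h => C / (Y + h) ^ 2 + C * (g + h)⁻¹) ?_ ?_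
    · filter_upwards [eventually_ge_atTop (0 : ℝ)] with h hh
      exact abs_JJ_le N hg hY hh
    · have h3 : Tendsto (fun h : ℝ => (Y + h)) atTop atTop :=
        tendsto_atTop_add_const_left _ Y tendsto_id
      have h4 : Tendsto (fun h : ℝ => (g + h)⁻¹) atTop (𝓝 0) :=
        tendsto_inv_atTop_zero.comp (tendsto_atTop_add_const_left _ g tendsto_id)
      have h5 : Tendsto (fun h : ℝ => C / (Y + h) ^ 2) atTop (𝓝 0) :=
        Tendsto.const_div_atTop ((tendsto_pow_atTop two_ne_zero).comp h3) C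
      simpa using h5.add (h4.const_mul C)
  have h := integral_Ioi_of_hasDerivAt_of_tendsto' (a := 0)
    (fun h hh => hasDerivAt_JJ N hg hY hh) (integrableOn_DDG N hg hY) ht
  rw [h, zero_sub]
  unfold JJG
  rw [← integral_neg]
  refine integral_congr_ae (Eventually.of_forall fun x => ?_)
  simp only [add_zero]
  ring

/-- **derivative of the average along the exact flow, one variable** -/
theorem hasDerivAt_avg (N : Nice F Fx Fy Fxx Fyy y0 C) {S g : ℝ} (hg : 0 < g)
    (hY : y0 < S - g) :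
    HasDerivAt (fun g => ∫ x, F x (S - g) * PK g x) (∫ h in Ioi 0, DDG Fxx Fyy (S - g) g h) g := by
  have hC := N.hC
  have hy0 := N.hy0
  rw [← green N hg hY]
  obtain ⟨ε, hε, hε1, hε2⟩ : ∃ ε : ℝ, 0 < ε ∧ ε ≤ g / 2 ∧ ε ≤ (S - g - y0) / 2 :=
    ⟨min (g / 2) ((S - g - y0) / 2), lt_min (by positivity) (by linarith), min_le_left _ _,
      min_le_right _ _⟩
  have hs : ∀ a ∈ Ioo (g - ε) (g + ε), g / 2 ≤ a ∧ a ≤ 2 * g ∧ (S - g) / 2 ≤ S - a ∧
      y0 < S - a := by
    intro a ha
    refine ⟨by linarith [ha.1], by linarith [ha.2], by linarith [ha.2], by linarith [ha.2]⟩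
  have hSg : 0 < S - g := by linarith
  have key := hasDerivAt_integral_of_dominated_loc_of_deriv_le (μ := (volume : Measure ℝ))
    (F := fun a x => F x (S - a) * PK a x)
    (F' := fun a x => F x (S - a) * PKg a x - Fy x (S - a) * PK a x)
    (x₀ := g) (s := Ioo (g - ε) (g + ε))
    (bound := fun x => (C + C * (4 / (S - g) ^ 2) * (2 * g)) * qk (g / 2) x)
    (Ioo_mem_nhds (by linarith) (by linarith))
    (Filter.eventually_of_mem (Ioo_mem_nhds (show g - ε < g by linarith)
      (show g < g + ε by linarith)) fun a ha => by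
        exact ((msec N.mF _).mul (measurable_PK _)).aestronglyMeasurable)
    (int_mul hg (msec N.mF _) (measurable_PK _) (fun x => N.b0 x _ hY) (abs_PK_le hg))
    (((msec N.mF _).mul (measurable_PKg _)).sub
      ((msec N.mFy _).mul (measurable_PK _))).aestronglyMeasurable
    (Eventually.of_forall fun x a ha => ?_)
    ((integrable_qk (by positivity)).const_mul _)
    (Eventually.of_forall fun x a ha => ?_)
  · exact key.2
  · obtain ⟨h1, h2, h3, h4⟩ := hs a ha
    have ha : 0 < a := by linarith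
    have hq := qk_le_half hg h1 x
    have hqp := qk_pos ha x
    have hqp2 := qk_pos (show 0 < g / 2 by positivity) x
    have hyy : |Fy x (S - a)| ≤ C * (4 / (S - g) ^ 2) := by
      refine (N.by' x _ h4).trans ?_
      rw [div_eq_mul_inv]
      refine mul_le_mul_of_nonneg_left ?_ hC
      have h5 : ((S - g) / 2) ^ 2 ≤ (S - a) ^ 2 := pow_le_pow_left₀ (by positivity) h3 2
      calc ((S - a) ^ 2)⁻¹ ≤ (((S - g) / 2) ^ 2)⁻¹ := inv_anti₀ (by positivity) h5
        _ = 4 / (S - g) ^ 2 := by field_simp; norm_num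
    rw [Real.norm_eq_abs]
    refine (abs_sub _ _).trans ?_
    rw [abs_mul, abs_mul, add_mul]
    refine add_le_add ?_ ?_
    · calc |F x (S - a)| * |PKg a x| ≤ C * (1 * qk a x) :=
            mul_le_mul (N.b0 x _ h4) (abs_PKg_le' ha x) (abs_nonneg _) hC
        _ ≤ C * qk (g / 2) x := by
            rw [one_mul]
            exact mul_le_mul_of_nonneg_left hq hC
    · calc |Fy x (S - a)| * |PK a x| ≤ (C * (4 / (S - g) ^ 2)) * (a * qk a x) :=
            mul_le_mul hyy (abs_PK_le ha x) (abs_nonneg _) (by positivity)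
        _ ≤ (C * (4 / (S - g) ^ 2)) * ((2 * g) * qk (g / 2) x) := by
            refine mul_le_mul_of_nonneg_left ?_ (by positivity)
            exact mul_le_mul h2 hq hqp.le (by linarith)
        _ = C * (4 / (S - g) ^ 2) * (2 * g) * qk (g / 2) x := by ring
  · obtain ⟨h1, h2, h3, h4⟩ := hs a ha
    have ha : 0 < a := by linarith
    have hu : HasDerivAt (fun t : ℝ => S - t) (-1) a := by
      simpa using (hasDerivAt_id a).const_sub S
    have d2 : HasDerivAt (fun t => F x (S - t)) (-Fy x (S - a)) a := by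
      have := (N.dy x _ h4).comp a hu
      rw [mul_neg, mul_one] at this
      exact this
    refine (d2.mul (hasDerivAt_PK_g ha x)).congr_deriv ?_
    ring

end P365H878
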