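import Vale.Agent.P365.Flow.Kick

set_option linter.all false

/-!
# P365 T2 / H878 / Ker: the Poisson kernel of the half plane, its derivatives and bounds.
-/

namespace P365H878

open MeasureTheory ProbabilityTheory Set Filter
open scoped Real Topology

/-- Poisson kernel at height `g` -/
noncomputable def PK (g x : ℝ) : ℝ := π⁻¹ * (g * (x ^ 2 + g ^ 2)⁻¹)
/-- `∂ PK / ∂ g` -/
noncomputable def PKg (g x : ℝ) : ℝ := π⁻¹ * ((x ^ 2 - g ^ 2) * ((x ^ 2 + g ^ 2) ^ 2)⁻¹)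
/-- `∂ PK / ∂ x` -/
noncomputable def PKx (g x : ℝ) : ℝ := π⁻¹ * (-(2 * g * x) * ((x ^ 2 + g ^ 2) ^ 2)⁻¹)
/-- `∂² PK / ∂ x² = - ∂² PK / ∂ g²` -/
noncomputable def PKxx (g x : ℝ) : ℝ :=
  π⁻¹ * (2 * g * (3 * x ^ 2 - g ^ 2) * ((x ^ 2 + g ^ 2) ^ 3)⁻¹)

theorem den_pos {g : ℝ} (hg : 0 < g) (x : ℝ) : 0 < x ^ 2 + g ^ 2 := by positivity

theorem hasDerivAt_PK_g {g : ℝ} (hg : 0 < g) (x : ℝ) :
    HasDerivAt (fun a => PK a x) (PKg g x) g := by
  have hd := (den_pos hg x).ne'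
  have h1 : HasDerivAt (fun a : ℝ => x ^ 2 + a ^ 2) (2 * g) g := by
    simpa using (hasDerivAt_pow 2 g).const_add (x ^ 2)
  have h2 := ((hasDerivAt_id g).mul (h1.inv hd)).const_mul π⁻¹
  refine h2.congr_deriv ?_
  unfold PKg
  simp only [id, Pi.inv_apply]
  field_simp
  ring

theorem hasDerivAt_PK_x {g : ℝ} (hg : 0 < g) (x : ℝ) :
    HasDerivAt (fun t => PK g t) (PKx g x) x := by
  have hd := (den_pos hg x).ne'
  have h1 : HasDerivAt (fun t : ℝ => t ^ 2 + g ^ 2) (2 * x) x := by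
    simpa using (hasDerivAt_pow 2 x).add_const (g ^ 2)
  have h2 := ((h1.inv hd).const_mul g).const_mul π⁻¹
  refine h2.congr_deriv ?_
  unfold PKx
  field_simp

theorem hasDerivAt_PKg_g {g : ℝ} (hg : 0 < g) (x : ℝ) :
    HasDerivAt (fun a => PKg a x) (-PKxx g x) g := by
  have hd := (den_pos hg x).ne'
  have h1 : HasDerivAt (fun a : ℝ => x ^ 2 + a ^ 2) (2 * g) g := by
    simpa using (hasDerivAt_pow 2 g).const_add (x ^ 2)
  have h3 : HasDerivAt (fun a : ℝ => x ^ 2 - a ^ 2) (-(2 * g)) g := by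
    simpa using (hasDerivAt_pow 2 g).const_sub (x ^ 2)
  have h2 := (h3.mul ((h1.pow 2).inv (pow_ne_zero 2 hd))).const_mul π⁻¹
  refine h2.congr_deriv ?_
  unfold PKxx
  simp only [Pi.pow_apply, Pi.inv_apply, Nat.cast_ofNat]
  field_simp
  ring

theorem hasDerivAt_PKx_x {g : ℝ} (hg : 0 < g) (x : ℝ) :
    HasDerivAt (fun t => PKx g t) (PKxx g x) x := by
  have hd := (den_pos hg x).ne'
  have h1 : HasDerivAt (fun t : ℝ => t ^ 2 + g ^ 2) (2 * x) x := by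
    simpa using (hasDerivAt_pow 2 x).add_const (g ^ 2)
  have h3 : HasDerivAt (fun t : ℝ => -(2 * g * t)) (-(2 * g)) x := by
    have := ((hasDerivAt_id x).const_mul (2 * g)).neg
    rw [mul_one] at this
    exact this
  have h2 := (h3.mul ((h1.pow 2).inv (pow_ne_zero 2 hd))).const_mul π⁻¹
  refine h2.congr_deriv ?_
  unfold PKxx
  simp only [Pi.pow_apply, Pi.inv_apply, Nat.cast_ofNat]
  field_simp
  ring

theorem PK_nonneg {g : ℝ} (hg : 0 < g) (x : ℝ) : 0 ≤ PK g x := by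
  have := Real.pi_pos
  unfold PK
  positivity

/-- the comparison kernel -/
noncomputable def qk (a x : ℝ) : ℝ := (x ^ 2 + a ^ 2)⁻¹

theorem qk_pos {a : ℝ} (ha : 0 < a) (x : ℝ) : 0 < qk a x := inv_pos.2 (den_pos ha x)

theorem qk_anti {a b : ℝ} (ha : 0 < a) (hab : a ≤ b) (x : ℝ) : qk b x ≤ qk a x := by
  unfold qk
  refine inv_anti₀ (den_pos ha x) ?_
  nlinarith

theorem pi_inv_le_one : (π : ℝ)⁻¹ ≤ 1 :=
  inv_le_one_of_one_le₀ (by linarith [Real.pi_gt_three])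

theorem PK_le {g : ℝ} (hg : 0 < g) (x : ℝ) : PK g x ≤ g * qk g x := by
  have h := qk_pos hg x
  have h1 := Real.pi_pos
  unfold PK
  calc π⁻¹ * (g * (x ^ 2 + g ^ 2)⁻¹) ≤ 1 * (g * (x ^ 2 + g ^ 2)⁻¹) :=
        mul_le_mul_of_nonneg_right pi_inv_le_one (by positivity)
    _ = g * qk g x := by unfold qk; ring

theorem abs_PKg_le {g : ℝ} (hg : 0 < g) (x : ℝ) : |PKg g x| ≤ π⁻¹ * qk g x := by
  have hd := den_pos hg x
  have h1 := Real.pi_pos
  unfold PKg qk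
  rw [abs_mul, abs_of_pos (inv_pos.2 h1), abs_mul, abs_of_pos (inv_pos.2 (pow_pos hd 2))]
  refine mul_le_mul_of_nonneg_left ?_ (inv_pos.2 h1).le
  have h2 : |x ^ 2 - g ^ 2| ≤ x ^ 2 + g ^ 2 := by
    rw [abs_le]; constructor <;> nlinarith [sq_nonneg x, sq_nonneg g]
  calc |x ^ 2 - g ^ 2| * ((x ^ 2 + g ^ 2) ^ 2)⁻¹ ≤ (x ^ 2 + g ^ 2) * ((x ^ 2 + g ^ 2) ^ 2)⁻¹ :=
        mul_le_mul_of_nonneg_right h2 (by positivity)
    _ = (x ^ 2 + g ^ 2)⁻¹ := by field_simp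

theorem abs_PKx_le {g : ℝ} (hg : 0 < g) (x : ℝ) : |PKx g x| ≤ qk g x := by
  have hd := den_pos hg x
  have h1 := Real.pi_pos
  unfold PKx qk
  rw [abs_mul, abs_of_pos (inv_pos.2 h1), abs_mul, abs_of_pos (inv_pos.2 (pow_pos hd 2)), abs_neg]
  have h2 : |2 * g * x| ≤ x ^ 2 + g ^ 2 := by
    rw [abs_le]; constructor <;> nlinarith [sq_nonneg (x - g), sq_nonneg (x + g)]
  calc π⁻¹ * (|2 * g * x| * ((x ^ 2 + g ^ 2) ^ 2)⁻¹)
      ≤ 1 * ((x ^ 2 + g ^ 2) * ((x ^ 2 + g ^ 2) ^ 2)⁻¹) :=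
        mul_le_mul pi_inv_le_one (mul_le_mul_of_nonneg_right h2 (by positivity))
          (by positivity) (by norm_num)
    _ = (x ^ 2 + g ^ 2)⁻¹ := by field_simp

theorem abs_PKxx_le {g : ℝ} (hg : 0 < g) (x : ℝ) : |PKxx g x| ≤ 6 / g * qk g x := by
  have hd := den_pos hg x
  have h1 := Real.pi_pos
  unfold PKxx qk
  rw [abs_mul, abs_of_pos (inv_pos.2 h1), abs_mul, abs_of_pos (inv_pos.2 (pow_pos hd 3)), abs_mul,
    abs_of_pos (by positivity : (0 : ℝ) < 2 * g)]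
  have h2 : |3 * x ^ 2 - g ^ 2| ≤ 3 * (x ^ 2 + g ^ 2) := by
    rw [abs_le]; constructor <;> nlinarith [sq_nonneg x, sq_nonneg g]
  calc π⁻¹ * (2 * g * |3 * x ^ 2 - g ^ 2| * ((x ^ 2 + g ^ 2) ^ 3)⁻¹)
      ≤ 1 * (2 * g * (3 * (x ^ 2 + g ^ 2)) * ((x ^ 2 + g ^ 2) ^ 3)⁻¹) := by
        refine mul_le_mul pi_inv_le_one ?_ (by positivity) (by norm_num)
        refine mul_le_mul_of_nonneg_right ?_ (by positivity)
        exact mul_le_mul_of_nonneg_left h2 (by positivity)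
    _ = 6 * g * (x ^ 2 + g ^ 2)⁻¹ * (x ^ 2 + g ^ 2)⁻¹ := by field_simp; ring
    _ ≤ 6 * g * (g ^ 2)⁻¹ * (x ^ 2 + g ^ 2)⁻¹ := by
        refine mul_le_mul_of_nonneg_right ?_ (by positivity)
        refine mul_le_mul_of_nonneg_left ?_ (by positivity)
        exact inv_anti₀ (by positivity) (by nlinarith [sq_nonneg x])
    _ = 6 / g * (x ^ 2 + g ^ 2)⁻¹ := by field_simp

theorem integrable_qk {a : ℝ} (ha : 0 < a) : Integrable (qk a) := by
  have h : Integrable fun x : ℝ => (1 + (x / a) ^ 2)⁻¹ :=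
    integrable_inv_one_add_sq.comp_div ha.ne'
  have h2 := h.const_mul (a ^ 2)⁻¹
  refine h2.congr (Eventually.of_forall fun x => ?_)
  unfold qk
  simp only
  field_simp
  ring

theorem continuous_qk {a : ℝ} (ha : 0 < a) : Continuous (qk a) := by
  unfold qk
  refine Continuous.inv₀ (by fun_prop) fun x => (den_pos ha x).ne'

theorem measurable_PK (g : ℝ) : Measurable (PK g) := by unfold PK; fun_prop
theorem measurable_PKg (g : ℝ) : Measurable (PKg g) := by unfold PKg; fun_prop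
theorem measurable_PKx (g : ℝ) : Measurable (PKx g) := by unfold PKx; fun_prop
theorem measurable_PKxx (g : ℝ) : Measurable (PKxx g) := by unfold PKxx; fun_prop

theorem integrable_PK {g : ℝ} (hg : 0 < g) : Integrable (PK g) := by
  refine Integrable.mono' ((integrable_qk hg).const_mul g) (measurable_PK g).aestronglyMeasurable ?_
  refine Eventually.of_forall fun x => ?_
  rw [Real.norm_of_nonneg (PK_nonneg hg x)]
  exact PK_le hg x

theorem integral_PK {g : ℝ} (hg : 0 < g) : ∫ x, PK g x = 1 := by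
  have h : ∫ x : ℝ, (1 + (x / g) ^ 2)⁻¹ = |g| • ∫ x : ℝ, (1 + x ^ 2)⁻¹ :=
    Measure.integral_comp_div (fun x : ℝ => (1 + x ^ 2)⁻¹) g
  rw [integral_univ_inv_one_add_sq, abs_of_pos hg, smul_eq_mul] at h
  have h2 : ∀ x, PK g x = (π⁻¹ * g⁻¹) * (1 + (x / g) ^ 2)⁻¹ := by
    intro x
    unfold PK
    field_simp
    ring
  simp only [h2]
  rw [integral_const_mul, h]
  have := Real.pi_pos.ne'
  field_simp

theorem integral_qk {g : ℝ} (hg : 0 < g) : ∫ x, qk g x = π / g := by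
  have h : ∀ x, qk g x = (π / g) * PK g x := by
    intro x
    unfold qk PK
    have := Real.pi_pos.ne'
    field_simp
  simp only [h]
  rw [integral_const_mul, integral_PK hg, mul_one]

end P365H878
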