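import Mathlib.Analysis.SpecialFunctions.Log.Deriv
import Mathlib.Analysis.SpecialFunctions.Pow.Real
import Mathlib.Analysis.SpecialFunctions.ExpDeriv
import Mathlib.Tactic
import Mathlib.Analysis.MeanInequalities

set_option linter.all false

/-!
# P365 T2 / H878 / LawB: part (2) of helper678's note 20418 (law error of the one-body entropy).

`lamN dl u = log (u + dl)` (844's new `G`), `lamO dl u = log (u + dl) + u / (u + dl)` (old `G`).
-/

namespace P365H878

open Finset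

/-- multiplier of `G(u) = (u+dl) log (u+dl) - u - dl log dl` -/
noncomputable def lamN (dl u : ℝ) : ℝ := Real.log (u + dl)
/-- multiplier of `G(u) = u log (u+dl)` -/
noncomputable def lamO (dl u : ℝ) : ℝ := Real.log (u + dl) + u / (u + dl)

theorem log_sub_le {T u v : ℝ} (hT : 0 ≤ T) (hu0 : 0 ≤ u) (hv0 : 0 ≤ v) (hu4 : u ≤ 4) :
    Real.log (u + Real.exp (-T)) - Real.log (v + Real.exp (-T)) ≤ T + 2 := by
  have h1 : Real.log (u + Real.exp (-T)) ≤ 2 := by
    have h2 : Real.exp (-T) ≤ 1 := Real.exp_le_one_iff.2 (by linarith)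
    have h3 : u + Real.exp (-T) ≤ Real.exp 2 := by
      have h4 := Real.add_one_le_exp (1 / 2 : ℝ)
      have h5 : Real.exp 2 = Real.exp (1 / 2) ^ 4 := by rw [← Real.exp_nat_mul]; norm_num
      have h7 : (3 / 2 : ℝ) ^ 4 ≤ Real.exp (1 / 2) ^ 4 :=
        pow_le_pow_left₀ (by norm_num) (by linarith) 4
      have h8 : (5 : ℝ) ≤ (3 / 2) ^ 4 := by norm_num
      linarith
    have := Real.log_le_log (by positivity) h3
    rwa [Real.log_exp] at this
  have h2 : -T ≤ Real.log (v + Real.exp (-T)) := by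
    have := Real.log_le_log (Real.exp_pos (-T)) (show Real.exp (-T) ≤ v + Real.exp (-T) by linarith)
    rwa [Real.log_exp] at this
  linarith

theorem log_sub_le_div {dl u v : ℝ} (hdl : 0 < dl) (hv0 : 0 ≤ v) (huv : v ≤ u) :
    Real.log (u + dl) - Real.log (v + dl) ≤ (u - v) / (v + dl) := by
  have h1 : 0 < v + dl := by linarith
  have h2 : 0 < u + dl := by linarith
  rw [← Real.log_div h2.ne' h1.ne']
  have h3 := Real.log_le_sub_one_of_pos (div_pos h2 h1)
  refine h3.trans (le_of_eq ?_)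
  field_simp
  ring

/-- **(2a), new multiplier**: `a = √u`, `b = √u₀` -/
theorem lamN_sub_mul_le {T a b : ℝ} (hT : 0 ≤ T) (ha : 0 ≤ a) (hb : 0 ≤ b) (ha2 : a ≤ 2)
    (hb2 : b ≤ 2) :
    |lamN (Real.exp (-T)) (a ^ 2) - lamN (Real.exp (-T)) (b ^ 2)| * a ≤
      6 * (1 + T) * |a - b| := by
  have hdl := Real.exp_pos (-T)
  have ha4 : a ^ 2 ≤ 4 := by nlinarith
  have hb4 : b ^ 2 ≤ 4 := by nlinarith
  unfold lamN
  rcases le_total b a with hab | hab
  · have hsq : b ^ 2 ≤ a ^ 2 := pow_le_pow_left₀ hb hab 2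
    have hmono : Real.log (b ^ 2 + Real.exp (-T)) ≤ Real.log (a ^ 2 + Real.exp (-T)) :=
      Real.log_le_log (by positivity) (by linarith)
    rw [abs_of_nonneg (by linarith), abs_of_nonneg (by linarith)]
    by_cases h2 : a ≤ 2 * b
    · rcases hb.eq_or_lt with hb0 | hbpos
      · have : a = 0 := by linarith
        subst this
        rw [← hb0]
        simp
      · have h3 := log_sub_le_div hdl (sq_nonneg b) hsq
        have h4 : (a ^ 2 - b ^ 2) / (b ^ 2 + Real.exp (-T)) ≤ (a ^ 2 - b ^ 2) / b ^ 2 :=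
          div_le_div_of_nonneg_left (by linarith) (by positivity) (by linarith)
        have h5 : (a ^ 2 - b ^ 2) / b ^ 2 * a ≤ 6 * (a - b) := by
          rw [div_mul_eq_mul_div, div_le_iff₀ (by positivity)]
          have h6 : (a ^ 2 - b ^ 2) * a = (a - b) * ((a + b) * a) := by ring
          rw [h6]
          have h7 : (a + b) * a ≤ 6 * b ^ 2 := by nlinarith
          have h8 := mul_le_mul_of_nonneg_left h7 (show 0 ≤ a - b by linarith)
          linarith
        calc (Real.log (a ^ 2 + Real.exp (-T)) - Real.log (b ^ 2 + Real.exp (-T))) * a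
            ≤ (a ^ 2 - b ^ 2) / b ^ 2 * a := mul_le_mul_of_nonneg_right (h3.trans h4) ha
          _ ≤ 6 * (a - b) := h5
          _ ≤ 6 * (1 + T) * (a - b) := by nlinarith
    · push Not at h2
      have h3 := log_sub_le hT (sq_nonneg a) (sq_nonneg b) ha4
      calc (Real.log (a ^ 2 + Real.exp (-T)) - Real.log (b ^ 2 + Real.exp (-T))) * a
          ≤ (T + 2) * a := mul_le_mul_of_nonneg_right h3 ha
        _ ≤ (T + 2) * (2 * (a - b)) := mul_le_mul_of_nonneg_left (by linarith) (by linarith)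
        _ ≤ 6 * (1 + T) * (a - b) := by nlinarith
  · have hsq : a ^ 2 ≤ b ^ 2 := pow_le_pow_left₀ ha hab 2
    have hmono : Real.log (a ^ 2 + Real.exp (-T)) ≤ Real.log (b ^ 2 + Real.exp (-T)) :=
      Real.log_le_log (by positivity) (by linarith)
    rw [abs_of_nonpos (by linarith), abs_of_nonpos (by linarith)]
    by_cases h2 : b ≤ 2 * a
    · rcases ha.eq_or_lt with ha0 | hapos
      · rw [← ha0]
        have : 0 ≤ 6 * (1 + T) * (b - 0) := by positivity
        simpa using this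
      · have h3 := log_sub_le_div hdl (sq_nonneg a) hsq
        have h4 : (b ^ 2 - a ^ 2) / (a ^ 2 + Real.exp (-T)) ≤ (b ^ 2 - a ^ 2) / a ^ 2 :=
          div_le_div_of_nonneg_left (by linarith) (by positivity) (by linarith)
        have h5 : (b ^ 2 - a ^ 2) / a ^ 2 * a ≤ 6 * (b - a) := by
          rw [div_mul_eq_mul_div, div_le_iff₀ (by positivity)]
          have h6 : (b ^ 2 - a ^ 2) * a = (b - a) * ((a + b) * a) := by ring
          rw [h6]
          have h7 : (a + b) * a ≤ 6 * a ^ 2 := by nlinarith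
          have h8 := mul_le_mul_of_nonneg_left h7 (show 0 ≤ b - a by linarith)
          linarith
        calc -(Real.log (a ^ 2 + Real.exp (-T)) - Real.log (b ^ 2 + Real.exp (-T))) * a
            = (Real.log (b ^ 2 + Real.exp (-T)) - Real.log (a ^ 2 + Real.exp (-T))) * a := by ring
          _ ≤ (b ^ 2 - a ^ 2) / a ^ 2 * a := mul_le_mul_of_nonneg_right (h3.trans h4) ha
          _ ≤ 6 * (b - a) := h5
          _ ≤ 6 * (1 + T) * -(a - b) := by nlinarith
    · push Not at h2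
      have h3 := log_sub_le hT (sq_nonneg b) (sq_nonneg a) hb4
      calc -(Real.log (a ^ 2 + Real.exp (-T)) - Real.log (b ^ 2 + Real.exp (-T))) * a
          = (Real.log (b ^ 2 + Real.exp (-T)) - Real.log (a ^ 2 + Real.exp (-T))) * a := by ring
        _ ≤ (T + 2) * a := mul_le_mul_of_nonneg_right h3 ha
        _ ≤ (T + 2) * (2 * (b - a)) := mul_le_mul_of_nonneg_left (by linarith) (by linarith)
        _ ≤ 6 * (1 + T) * -(a - b) := by nlinarith

theorem frac_mem {dl u : ℝ} (hdl : 0 < dl) (hu : 0 ≤ u) : 0 ≤ u / (u + dl) ∧ u / (u + dl) ≤ 1 :=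
  ⟨by positivity, by rw [div_le_one (by positivity)]; linarith⟩

theorem frac_sub_mul_le {dl a b : ℝ} (hdl : 0 < dl) (ha : 0 ≤ a) (hb : 0 ≤ b) :
    |a ^ 2 / (a ^ 2 + dl) - b ^ 2 / (b ^ 2 + dl)| * a ≤ 3 * |a - b| := by
  have h1 := frac_mem hdl (sq_nonneg a)
  have h2 := frac_mem hdl (sq_nonneg b)
  by_cases hc : b ≤ 2 * a
  · rcases ha.eq_or_lt with ha0 | hapos
    · rw [← ha0]; simp
    · have e : a ^ 2 / (a ^ 2 + dl) - b ^ 2 / (b ^ 2 + dl) =
          (a - b) * ((a + b) / (a ^ 2 + dl) * (dl / (b ^ 2 + dl))) := by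
        field_simp
        ring
      rw [e, abs_mul]
      have h3 : |(a + b) / (a ^ 2 + dl) * (dl / (b ^ 2 + dl))| ≤ 3 / a := by
        rw [abs_of_nonneg (by positivity)]
        have h4 : dl / (b ^ 2 + dl) ≤ 1 := by
          rw [div_le_one (by positivity)]; nlinarith [sq_nonneg b]
        have h5 : (a + b) / (a ^ 2 + dl) ≤ 3 / a := by
          rw [div_le_div_iff₀ (by positivity) hapos]
          nlinarith
        calc (a + b) / (a ^ 2 + dl) * (dl / (b ^ 2 + dl)) ≤ 3 / a * 1 :=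
              mul_le_mul h5 h4 (by positivity) (by positivity)
          _ = 3 / a := mul_one _
      calc |a - b| * |(a + b) / (a ^ 2 + dl) * (dl / (b ^ 2 + dl))| * a
          ≤ |a - b| * (3 / a) * a :=
            mul_le_mul_of_nonneg_right (mul_le_mul_of_nonneg_left h3 (abs_nonneg _)) ha
        _ = 3 * |a - b| := by field_simp
  · push Not at hc
    have h3 : |a ^ 2 / (a ^ 2 + dl) - b ^ 2 / (b ^ 2 + dl)| ≤ 1 := by
      rw [abs_le]; constructor <;> linarith [h1.1, h1.2, h2.1, h2.2]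
    rw [abs_of_nonpos (show a - b ≤ 0 by linarith)]
    nlinarith [abs_nonneg (a ^ 2 / (a ^ 2 + dl) - b ^ 2 / (b ^ 2 + dl))]

/-- **(2a), old multiplier** -/
theorem lamO_sub_mul_le {T a b : ℝ} (hT : 0 ≤ T) (ha : 0 ≤ a) (hb : 0 ≤ b) (ha2 : a ≤ 2)
    (hb2 : b ≤ 2) :
    |lamO (Real.exp (-T)) (a ^ 2) - lamO (Real.exp (-T)) (b ^ 2)| * a ≤
      9 * (1 + T) * |a - b| := by
  have h1 := lamN_sub_mul_le hT ha hb ha2 hb2
  have h2 := frac_sub_mul_le (Real.exp_pos (-T)) ha hb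
  have e : lamO (Real.exp (-T)) (a ^ 2) - lamO (Real.exp (-T)) (b ^ 2) =
      (lamN (Real.exp (-T)) (a ^ 2) - lamN (Real.exp (-T)) (b ^ 2)) +
        (a ^ 2 / (a ^ 2 + Real.exp (-T)) - b ^ 2 / (b ^ 2 + Real.exp (-T))) := by
    unfold lamO lamN; ring
  rw [e]
  have h3 := mul_le_mul_of_nonneg_right (abs_add_le
    (lamN (Real.exp (-T)) (a ^ 2) - lamN (Real.exp (-T)) (b ^ 2))
    (a ^ 2 / (a ^ 2 + Real.exp (-T)) - b ^ 2 / (b ^ 2 + Real.exp (-T)))) ha
  have h4 : 0 ≤ |a - b| * T := by positivity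
  nlinarith [abs_nonneg (a - b)]

/-- (2b): `n = R m √u`, `n0 = R m0 √u0` -/
theorem sqrt_u_sub_le {R m m0 n n0 a b : ℝ} (hR : 0 ≤ R) (hm : 0 ≤ m) (hb : 0 ≤ b)
    (hn : n = R * m * a) (hn0 : n0 = R * m0 * b) :
    R * m * |a - b| ≤ |n - n0| + R * b * |m - m0| := by
  have e : R * m * (a - b) = (n - n0) - R * b * (m - m0) := by rw [hn, hn0]; ring
  have h1 : R * m * |a - b| = |R * m * (a - b)| := by
    rw [abs_mul, abs_of_nonneg (mul_nonneg hR hm)]
  rw [h1, e]
  refine (abs_sub _ _).trans ?_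
  rw [abs_mul, abs_of_nonneg (mul_nonneg hR hb)]

/-- **(2c)**: the term `[B]` of one site `x`; `lam` any multiplier with the bound (2a) -/
theorem termB_le {K R m m0 n n0 a b be et B τ dN l l0 : ℝ} (hK : 0 ≤ K) (hR : 0 ≤ R)
    (hm : 0 ≤ m) (ha : 0 ≤ a) (hb : 0 ≤ b) (hB : 0 < B) (hbe : 0 ≤ be) (hτ : 0 ≤ τ)
    (hn : n = R * m * a) (hn0 : n0 = R * m0 * b) (hl : |l - l0| * a ≤ K * |a - b|)
    (h1 : |n - n0| ≤ τ * be) (h2 : |m - m0| ≤ τ * et) (h3 : |dN| ≤ n * be / B) :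
    |(l - l0) * dN| ≤ K * τ * (be ^ 2 + R * b * et * be) / B := by
  rw [abs_mul]
  calc |l - l0| * |dN| ≤ |l - l0| * (n * be / B) := mul_le_mul_of_nonneg_left h3 (abs_nonneg _)
    _ = (|l - l0| * a) * (R * m) * be / B := by rw [hn]; ring
    _ ≤ (K * |a - b|) * (R * m) * be / B := by
        have := mul_nonneg hR hm
        gcongr
    _ = K * (R * m * |a - b|) * be / B := by ring
    _ ≤ K * (|n - n0| + R * b * |m - m0|) * be / B := by
        have := sqrt_u_sub_le hR hm hb hn hn0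
        gcongr
    _ ≤ K * (τ * be + R * b * (τ * et)) * be / B := by
        have h5 : R * b * |m - m0| ≤ R * b * (τ * et) :=
          mul_le_mul_of_nonneg_left h2 (mul_nonneg hR hb)
        gcongr
    _ = K * τ * (be ^ 2 + R * b * et * be) / B := by ring

/-- **(2), summed over the sites**: `q x = e_x |c_x|² N^x`, `z x = e_x |c_x|²`, `et² = z B`,
`be² = q`:
`∑ |[B]_x| ≤ K τ (Q + √(Q Z))`, `Q = ∑ q / B`, `Z = ∑ z R² u₀`. -/
theorem sumB_le {ι : Type*} (s : Finset ι) {K τ B : ℝ} {R : ℝ} (hK : 0 ≤ K) (hτ : 0 ≤ τ)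
    (hB : 0 < B) (hR : 0 ≤ R) (m m0 n n0 a b q z dN l l0 : ι → ℝ)
    (hm : ∀ x ∈ s, 0 ≤ m x) (ha : ∀ x ∈ s, 0 ≤ a x) (hb : ∀ x ∈ s, 0 ≤ b x)
    (hq : ∀ x ∈ s, 0 ≤ q x) (hz : ∀ x ∈ s, 0 ≤ z x)
    (hn : ∀ x ∈ s, n x = R * m x * a x) (hn0 : ∀ x ∈ s, n0 x = R * m0 x * b x)
    (hl : ∀ x ∈ s, |l x - l0 x| * a x ≤ K * |a x - b x|)
    (h1 : ∀ x ∈ s, |n x - n0 x| ≤ τ * Real.sqrt (q x))
    (h2 : ∀ x ∈ s, |m x - m0 x| ≤ τ * Real.sqrt (z x * B))
    (h3 : ∀ x ∈ s, |dN x| ≤ n x * Real.sqrt (q x) / B) :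
    ∑ x ∈ s, |(l x - l0 x) * dN x| ≤
      K * τ * ((∑ x ∈ s, q x) / B +
        Real.sqrt ((∑ x ∈ s, q x) / B) * Real.sqrt (∑ x ∈ s, z x * (R * b x) ^ 2)) := by
  have hterm : ∀ x ∈ s, |(l x - l0 x) * dN x| ≤
      K * τ * (q x / B + Real.sqrt (q x / B) * Real.sqrt (z x * (R * b x) ^ 2)) := by
    intro x hx
    have h4 := termB_le (be := Real.sqrt (q x)) (et := Real.sqrt (z x * B)) hK hR (hm x hx)
      (ha x hx) (hb x hx) hB (Real.sqrt_nonneg _) hτ (hn x hx) (hn0 x hx) (hl x hx) (h1 x hx)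
      (h2 x hx) (h3 x hx)
    refine h4.trans (le_of_eq ?_)
    have hqx := hq x hx
    have hzx := hz x hx
    have hbx := hb x hx
    have e1 : Real.sqrt (q x) ^ 2 = q x := Real.sq_sqrt hqx
    have e2 : Real.sqrt (z x * (R * b x) ^ 2) = Real.sqrt (z x) * (R * b x) := by
      rw [Real.sqrt_mul hzx, Real.sqrt_sq (mul_nonneg hR hbx)]
    have e3 : Real.sqrt (z x * B) = Real.sqrt (z x) * Real.sqrt B := Real.sqrt_mul hzx B
    have e4 : Real.sqrt (q x / B) = Real.sqrt (q x) / Real.sqrt B := Real.sqrt_div hqx B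
    have hsB : 0 < Real.sqrt B := Real.sqrt_pos.2 hB
    have e5 : Real.sqrt B * Real.sqrt B = B := Real.mul_self_sqrt hB.le
    rw [e1, e2, e3, e4]
    have e6 : R * b x * (Real.sqrt (z x) * Real.sqrt B) * Real.sqrt (q x) / B =
        Real.sqrt (q x) / Real.sqrt B * (Real.sqrt (z x) * (R * b x)) := by
      rw [div_mul_eq_mul_div, div_eq_div_iff hB.ne' hsB.ne']
      calc R * b x * (Real.sqrt (z x) * Real.sqrt B) * Real.sqrt (q x) * Real.sqrt B =
            R * b x * Real.sqrt (z x) * Real.sqrt (q x) * (Real.sqrt B * Real.sqrt B) := by ring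
        _ = Real.sqrt (q x) * (Real.sqrt (z x) * (R * b x)) * B := by rw [e5]; ring
    rw [mul_div_assoc, add_div, e6]
  refine (Finset.sum_le_sum hterm).trans ?_
  rw [← Finset.mul_sum, Finset.sum_add_distrib, ← Finset.sum_div]
  refine mul_le_mul_of_nonneg_left (add_le_add_right ?_ _) (mul_nonneg hK hτ)
  have hcs := Real.sum_mul_le_sqrt_mul_sqrt s (fun x => Real.sqrt (q x / B))
    (fun x => Real.sqrt (z x * (R * b x) ^ 2))
  refine hcs.trans (le_of_eq ?_)
  congr 2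
  · rw [Finset.sum_div]
    refine Finset.sum_congr rfl fun x hx => ?_
    exact Real.sq_sqrt (div_nonneg (hq x hx) hB.le)
  · refine Finset.sum_congr rfl fun x hx => ?_
    exact Real.sq_sqrt (mul_nonneg (hz x hx) (sq_nonneg _))

end P365H878
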