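import Vale.Agent.P365.Flow.Kick
import Mathlib.MeasureTheory.Integral.IntervalIntegral.FundThmCalculus
import Mathlib.Analysis.SpecialFunctions.Integrals.Basic

set_option linter.all false

/-!
# P365 T2 / H878 / Path: from one-kick inequalities to the exact-noise flow.

Profile at the time vector `s : ι → ℝ`: noise `g0 x + a x (1 - exp (- s x))`, absorption
`b x + a x exp (- s x)` (`a x = 0`: static site).
-/

namespace P365H878

open MeasureTheory ProbabilityTheory Set Filter P365L P365L.Poi P365F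
open scoped Real Topology

variable {ι : Type*}

/-- noise scales at the time vector `s` -/
noncomputable def gs (g0 a s : ι → ℝ) (x : ι) : ℝ := g0 x + a x * (1 - Real.exp (-s x))
/-- absorptions at the time vector `s` -/
noncomputable def es (b a s : ι → ℝ) (x : ι) : ℝ := b x + a x * Real.exp (-s x)

section one

variable [Fintype ι] [DecidableEq ι]

/-- mean of a functional at the time vector `s` -/
noncomputable def HH (U g0 b a : ι → ℝ) (F : (ι → ℂ) → ℝ) (s : ι → ℝ) : ℝ :=
  ∫ c, F (Wc U (gs g0 a s) (es b a s) c) ∂(mu ι)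

variable {U g0 b a : ι → ℝ} {F : (ι → ℂ) → ℝ} {l : ι → (ι → ℂ) → ℝ}

theorem gs_update (s : ι → ℝ) (y : ι) (r : ℝ) :
    gs g0 a (Function.update s y r) = Function.update (gs g0 a s) y
      (gs g0 a s y + a y * (Real.exp (-s y) - Real.exp (-r))) := by
  funext x
  by_cases h : x = y
  · subst h
    rw [Function.update_self]
    unfold gs
    rw [Function.update_self]
    ring
  · rw [Function.update_of_ne h]
    unfold gs
    rw [Function.update_of_ne h]

theorem es_update (s : ι → ℝ) (y : ι) (r : ℝ) :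
    es b a (Function.update s y r) = Function.update (es b a s) y
      (es b a s y - a y * (Real.exp (-s y) - Real.exp (-r))) := by
  funext x
  by_cases h : x = y
  · subst h
    rw [Function.update_self]
    unfold es
    rw [Function.update_self]
    ring
  · rw [Function.update_of_ne h]
    unfold es
    rw [Function.update_of_ne h]

/-- **one site lowered** -/
theorem HH_step {s : ι → ℝ} {y : ι} {r : ℝ} (hg0 : ∀ x, 0 ≤ g0 x) (ha : ∀ x, 0 ≤ a x)
    (hs0 : 0 ≤ s y) (hr : s y ≤ r)
    (hF : Integrable (fun c => F (Wc U (gs g0 a s) (es b a s) c)) (mu ι))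
    (hF' : Integrable (fun c => F (Wc U (gs g0 a (Function.update s y r))
      (es b a (Function.update s y r)) c)) (mu ι))
    (hl : Integrable (fun c => l y (Wc U (gs g0 a s) (es b a s) c)) (mu ι))
    (hh2 : a y * (Real.exp (-s y) - Real.exp (-r)) ≤ es b a s y / 2)
    (hkick : ∀ c, ∀ h : ℝ, 0 < h → h ≤ es b a s y / 2 →
      F (Wc U (gs g0 a s) (es b a s) c) + h * l y (Wc U (gs g0 a s) (es b a s) c) ≤
        ∫ t, F (kickW y h (Wc U (gs g0 a s) (es b a s) c) t) ∂nu) :
    HH U g0 b a F s + a y * (Real.exp (-s y) - Real.exp (-r)) * HH U g0 b a (l y) s ≤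
      HH U g0 b a F (Function.update s y r) := by
  have he : 0 ≤ Real.exp (-s y) - Real.exp (-r) := by
    have := Real.exp_le_exp.2 (neg_le_neg hr)
    linarith
  obtain ⟨h, hh⟩ : ∃ h : ℝ, h = a y * (Real.exp (-s y) - Real.exp (-r)) := ⟨_, rfl⟩
  have hh0 : 0 ≤ h := by rw [hh]; exact mul_nonneg (ha y) he
  have hgy : 0 ≤ gs g0 a s y := by
    unfold gs
    have : Real.exp (-s y) ≤ 1 := Real.exp_le_one_iff.2 (by linarith)
    have := mul_nonneg (ha y) (sub_nonneg.2 this)
    have := hg0 y
    linarith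
  have e1 := gs_update (g0 := g0) (a := a) s y r
  have e2 := es_update (b := b) (a := a) s y r
  rw [← hh] at e1 e2 hh2 ⊢
  rcases hh0.eq_or_lt with h0 | hpos
  · rw [← h0] at e1 e2 ⊢
    rw [add_zero, Function.update_eq_self] at e1
    rw [sub_zero, Function.update_eq_self] at e2
    unfold HH
    rw [e1, e2]
    simp
  · unfold HH
    rw [e1, e2] at hF' ⊢
    rw [integral_lower U (gs g0 a s) (es b a s) y hgy hpos hF']
    have hI := integrable_lower_iff U (gs g0 a s) (es b a s) y hgy hpos hF'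
    rw [← integral_const_mul, ← integral_add hF (hl.const_mul h)]
    refine integral_mono (hF.add (hl.const_mul h)) hI.integral_prod_left fun c => ?_
    exact hkick c h hpos hh2

/-- the time vector `t` off `S`, `t'` on `S` -/
noncomputable def tv (S : Finset ι) (t t' : ℝ) (x : ι) : ℝ := if x ∈ S then t' else t

omit [Fintype ι] in
theorem tv_insert {S : Finset ι} {y : ι} (hy : y ∉ S) (t t' : ℝ) :
    tv (insert y S) t t' = Function.update (tv S t t') y t' := by
  funext x
  by_cases h : x = y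
  · subst h
    rw [Function.update_self]
    unfold tv
    simp
  · rw [Function.update_of_ne h]
    unfold tv
    simp [h]

omit [Fintype ι] in
theorem tv_mem {t1 t2 t t' : ℝ} (h1 : t1 ≤ t) (h2 : t ≤ t') (h3 : t' ≤ t2) (S : Finset ι) :
    tv S t t' ∈ Set.pi univ (fun _ : ι => Icc t1 t2) := by
  intro x _
  unfold tv
  split_ifs
  · exact ⟨h1.trans h2, h3⟩
  · exact ⟨h1, h2.trans h3⟩

omit [Fintype ι] in
theorem tv_not_mem {S : Finset ι} {y : ι} (hy : y ∉ S) (t t' : ℝ) : tv S t t' y = t := by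
  unfold tv
  simp [hy]

/-- hypotheses of the path lemma -/
structure PathHyp (U g0 b a : ι → ℝ) (F : (ι → ℂ) → ℝ) (l : ι → (ι → ℂ) → ℝ) (t1 t2 : ℝ) :
    Prop where
  hg0 : ∀ x, 0 ≤ g0 x
  ha : ∀ x, 0 ≤ a x
  hb : ∀ x, 0 ≤ b x
  ht1 : 0 ≤ t1
  hF : ∀ s ∈ Set.pi univ (fun _ : ι => Icc t1 t2),
    Integrable (fun c => F (Wc U (gs g0 a s) (es b a s) c)) (mu ι)
  hl : ∀ y, ∀ s ∈ Set.pi univ (fun _ : ι => Icc t1 t2),
    Integrable (fun c => l y (Wc U (gs g0 a s) (es b a s) c)) (mu ι)
  hkick : ∀ y, ∀ s ∈ Set.pi univ (fun _ : ι => Icc t1 t2), ∀ c, ∀ h : ℝ, 0 < h →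
    h ≤ es b a s y / 2 →
      F (Wc U (gs g0 a s) (es b a s) c) + h * l y (Wc U (gs g0 a s) (es b a s) c) ≤
        ∫ t, F (kickW y h (Wc U (gs g0 a s) (es b a s) c) t) ∂nu
  hcont : ∀ y, ContinuousOn (HH U g0 b a (l y)) (Set.pi univ (fun _ : ι => Icc t1 t2))

theorem half_step (hb : ∀ x, 0 ≤ b x) (ha : ∀ x, 0 ≤ a x) {s : ι → ℝ} {y : ι} {r : ℝ}
    (hr2 : r ≤ s y + 1 / 2) :
    a y * (Real.exp (-s y) - Real.exp (-r)) ≤ es b a s y / 2 := by
  unfold es
  have h1 : Real.exp (-s y) * (1 / 2) ≤ Real.exp (-r) := by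
    have h2 : Real.exp (-s y - 1 / 2) ≤ Real.exp (-r) := Real.exp_le_exp.2 (by linarith)
    refine le_trans ?_ h2
    rw [sub_eq_add_neg, Real.exp_add]
    refine mul_le_mul_of_nonneg_left ?_ (Real.exp_pos _).le
    have := Real.add_one_le_exp (-(1 / 2 : ℝ))
    linarith
  have h2 := ha y
  have h3 := hb y
  nlinarith

/-- all sites of `S` lowered from time `t` to time `t'` -/
theorem HH_path {t1 t2 : ℝ} (P : PathHyp U g0 b a F l t1 t2) {t t' : ℝ} (h1 : t1 ≤ t)
    (h2 : t ≤ t') (h3 : t' ≤ t2) (h4 : t' ≤ t + 1 / 2) {m : ι → ℝ}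
    (hm : ∀ y, ∀ S : Finset ι, m y ≤ HH U g0 b a (l y) (tv S t t')) (S : Finset ι) :
    HH U g0 b a F (tv ∅ t t') + ∑ y ∈ S, a y * (Real.exp (-t) - Real.exp (-t')) * m y ≤
      HH U g0 b a F (tv S t t') := by
  induction S using Finset.induction_on with
  | empty => simp
  | insert y S hy ih =>
    rw [Finset.sum_insert hy, tv_insert hy]
    have e : tv S t t' y = t := tv_not_mem hy t t'
    have hmem := tv_mem h1 h2 h3 S
    have hmem' := tv_mem h1 h2 h3 (insert y S)
    rw [tv_insert hy] at hmem'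
    have hstep := HH_step (U := U) (g0 := g0) (b := b) (a := a) (F := F) (l := l)
      (s := tv S t t') (y := y) (r := t') P.hg0 P.ha
      (by rw [e]; exact P.ht1.trans h1) (by rw [e]; exact h2) (P.hF _ hmem) (P.hF _ hmem')
      (P.hl y _ hmem) (half_step P.hb P.ha (by rw [e]; exact h4)) (P.hkick y _ hmem)
    rw [e] at hstep
    have h5 : 0 ≤ a y * (Real.exp (-t) - Real.exp (-t')) := by
      refine mul_nonneg (P.ha y) ?_
      have := Real.exp_le_exp.2 (neg_le_neg h2)
      linarith
    have h6 := mul_le_mul_of_nonneg_left (hm y S) h5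
    linarith

/-- the rate along the diagonal -/
noncomputable def rate (U g0 b a : ι → ℝ) (l : ι → (ι → ℂ) → ℝ) (t : ℝ) : ℝ :=
  ∑ y, a y * Real.exp (-t) * HH U g0 b a (l y) (fun _ => t)

theorem diag_continuousOn {t1 t2 : ℝ} (P : PathHyp U g0 b a F l t1 t2) (y : ι) :
    ContinuousOn (fun t : ℝ => HH U g0 b a (l y) (fun _ => t)) (Icc t1 t2) := by
  refine (P.hcont y).comp (g := HH U g0 b a (l y)) (f := fun t : ℝ => (fun _ : ι => t)) ?_ ?_
  · exact (continuous_pi fun _ => continuous_id).continuousOn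
  · intro t ht x _
    exact ht

theorem rate_continuousOn {t1 t2 : ℝ} (P : PathHyp U g0 b a F l t1 t2) :
    ContinuousOn (rate U g0 b a l) (Icc t1 t2) := by
  unfold rate
  refine continuousOn_finset_sum _ fun y _ => ?_
  refine ContinuousOn.mul ?_ (diag_continuousOn P y)
  exact (by fun_prop : Continuous fun t : ℝ => a y * Real.exp (-t)).continuousOn

/-- local inequality -/
theorem local_ineq {t1 t2 : ℝ} (P : PathHyp U g0 b a F l t1 t2) {ε : ℝ} (hε : 0 < ε) :
    ∃ δ : ℝ, 0 < δ ∧ ∀ t t' : ℝ, t1 ≤ t → t ≤ t' → t' ≤ t2 → t' - t ≤ δ →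
      HH U g0 b a F (fun _ => t) + ∫ r in t..t', (rate U g0 b a l r - ε) ≤
        HH U g0 b a F (fun _ => t') := by
  classical
  obtain ⟨A, hA⟩ : ∃ A : ℝ, A = ∑ y, a y := ⟨_, rfl⟩
  have hA0 : 0 ≤ A := by rw [hA]; exact Finset.sum_nonneg fun y _ => P.ha y
  obtain ⟨ε', hε'⟩ : ∃ ε' : ℝ, ε' = ε / (2 * (A + 1)) := ⟨_, rfl⟩
  have hε'0 : 0 < ε' := by rw [hε']; positivity
  have hcpt : IsCompact (Set.pi univ (fun _ : ι => Icc t1 t2)) :=
    isCompact_univ_pi fun _ => isCompact_Icc
  have huc : ∀ y, ∃ δ > 0, ∀ s ∈ Set.pi univ (fun _ : ι => Icc t1 t2),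
      ∀ s' ∈ Set.pi univ (fun _ : ι => Icc t1 t2), dist s s' < δ →
        dist (HH U g0 b a (l y) s) (HH U g0 b a (l y) s') < ε' := fun y =>
    Metric.uniformContinuousOn_iff.1 (hcpt.uniformContinuousOn_of_continuous (P.hcont y)) ε' hε'0
  choose δ hδ0 hδ using huc
  obtain ⟨δ0, hδ00, hδ01, hδ02⟩ : ∃ δ0 : ℝ, 0 < δ0 ∧ δ0 ≤ 1 / 2 ∧ ∀ y, δ0 < δ y := by
    by_cases hne : Nonempty ι
    · refine ⟨min (1 / 2) ((Finset.univ.inf' Finset.univ_nonempty δ) / 2), ?_, min_le_left _ _,
        fun y => ?_⟩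
      · refine lt_min (by norm_num) ?_
        have : 0 < Finset.univ.inf' Finset.univ_nonempty δ :=
          (Finset.lt_inf'_iff _).2 fun y _ => hδ0 y
        linarith
      · have h1 : Finset.univ.inf' Finset.univ_nonempty δ ≤ δ y :=
          Finset.inf'_le _ (Finset.mem_univ y)
        have h2 : 0 < Finset.univ.inf' Finset.univ_nonempty δ :=
          (Finset.lt_inf'_iff _).2 fun y _ => hδ0 y
        have h3 := min_le_right (1 / 2 : ℝ) ((Finset.univ.inf' Finset.univ_nonempty δ) / 2)
        linarith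
    · exact ⟨1 / 2, by norm_num, le_refl _, fun y => (hne ⟨y⟩).elim⟩
  refine ⟨δ0, hδ00, fun t t' h1 h2 h3 h4 => ?_⟩
  have hdist : ∀ (S : Finset ι) (r : ℝ), r ∈ Icc t t' → ∀ y,
      dist (HH U g0 b a (l y) (tv S t t')) (HH U g0 b a (l y) (fun _ => r)) < ε' := by
    intro S r hr y
    refine hδ y _ (tv_mem h1 h2 h3 S) _ (fun x _ => ⟨h1.trans hr.1, hr.2.trans h3⟩) ?_
    refine (dist_pi_lt_iff (hδ0 y)).2 fun x => ?_
    rw [Real.dist_eq]
    refine lt_of_le_of_lt ?_ (hδ02 y)
    unfold tv
    split_ifs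
    · rw [abs_of_nonneg (by linarith [hr.2])]
      linarith [hr.1]
    · rw [abs_of_nonpos (by linarith [hr.1])]
      linarith [hr.2]
  have hmm : ∀ y, ∀ S : Finset ι,
      HH U g0 b a (l y) (fun _ => t) - ε' ≤ HH U g0 b a (l y) (tv S t t') := by
    intro y S
    have := hdist S t ⟨le_refl _, h2⟩ y
    rw [Real.dist_eq, abs_lt] at this
    linarith [this.1]
  have hp := HH_path P h1 h2 h3 (by linarith) hmm Finset.univ
  have e1 : tv (∅ : Finset ι) t t' = fun _ => t := by
    funext x; unfold tv; simp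
  have e2 : tv (Finset.univ : Finset ι) t t' = fun _ => t' := by
    funext x; unfold tv; simp
  rw [e1, e2] at hp
  refine le_trans ?_ hp
  refine add_le_add_right ?_ _
  -- compare the integral
  have hexp : ∫ r in t..t', Real.exp (-r) = Real.exp (-t) - Real.exp (-t') := by
    have hd : ∀ r ∈ uIcc t t', HasDerivAt (fun r : ℝ => -Real.exp (-r)) (Real.exp (-r)) r := by
      intro r _
      have := ((Real.hasDerivAt_exp (-r)).comp r (hasDerivAt_neg r)).neg
      refine this.congr_deriv ?_
      ring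
    rw [intervalIntegral.integral_eq_sub_of_hasDerivAt hd
      ((by fun_prop : Continuous fun r : ℝ => Real.exp (-r)).intervalIntegrable _ _)]
    ring
  have hsum : ∑ y, a y * (Real.exp (-t) - Real.exp (-t')) *
      (HH U g0 b a (l y) (fun _ => t) - ε') =
      ∫ r in t..t', ∑ y, a y * Real.exp (-r) * (HH U g0 b a (l y) (fun _ => t) - ε') := by
    have e3 : ∀ r : ℝ, ∑ y, a y * Real.exp (-r) * (HH U g0 b a (l y) (fun _ => t) - ε') =
        Real.exp (-r) * ∑ y, a y * (HH U g0 b a (l y) (fun _ => t) - ε') := by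
      intro r
      rw [Finset.mul_sum]
      exact Finset.sum_congr rfl fun y _ => by ring
    simp only [e3]
    rw [intervalIntegral.integral_mul_const, hexp, Finset.mul_sum]
    exact Finset.sum_congr rfl fun y _ => by ring
  rw [hsum]
  have hI1 : IntervalIntegrable (fun r => rate U g0 b a l r - ε) volume t t' := by
    refine ContinuousOn.intervalIntegrable ?_
    rw [uIcc_of_le h2]
    exact ((rate_continuousOn P).mono (Icc_subset_Icc h1 h3)).sub continuousOn_const
  have hI2 : IntervalIntegrable (fun r => ∑ y, a y * Real.exp (-r) *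
      (HH U g0 b a (l y) (fun _ => t) - ε')) volume t t' := by
    refine Continuous.intervalIntegrable ?_ _ _
    fun_prop
  refine intervalIntegral.integral_mono_on h2 hI1 hI2 fun r hr => ?_
  have hr0 : Real.exp (-r) ≤ 1 := by
    refine Real.exp_le_one_iff.2 ?_
    have := P.ht1
    linarith [hr.1]
  have hr1 := Real.exp_pos (-r)
  have h5 : ∑ y, a y * Real.exp (-r) * (2 * ε') ≤ ε := by
    rw [← Finset.sum_mul, ← Finset.sum_mul, ← hA]
    calc A * Real.exp (-r) * (2 * ε') ≤ A * 1 * (2 * ε') := by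
          refine mul_le_mul_of_nonneg_right ?_ (by positivity)
          exact mul_le_mul_of_nonneg_left hr0 hA0
      _ ≤ (A + 1) * (2 * ε') := by nlinarith
      _ = ε := by rw [hε']; field_simp
  unfold rate
  refine le_trans (sub_le_sub_left h5 _) ?_
  rw [← Finset.sum_sub_distrib]
  refine Finset.sum_le_sum fun y _ => ?_
  rw [← mul_sub]
  refine mul_le_mul_of_nonneg_left ?_ (mul_nonneg (P.ha y) hr1.le)
  have h6 := hdist ∅ r hr y
  rw [e1, Real.dist_eq, abs_lt] at h6
  linarith [h6.1]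

/-- **PATH LEMMA**: from one-kick inequalities to the exact-noise flow. -/
theorem path {t1 t2 : ℝ} (P : PathHyp U g0 b a F l t1 t2) (h12 : t1 ≤ t2) :
    HH U g0 b a F (fun _ => t1) + ∫ r in t1..t2, rate U g0 b a l r ≤
      HH U g0 b a F (fun _ => t2) := by
  have key : ∀ ε : ℝ, 0 < ε → HH U g0 b a F (fun _ => t1) +
      ∫ r in t1..t2, (rate U g0 b a l r - ε) ≤ HH U g0 b a F (fun _ => t2) := by
    intro ε hε
    obtain ⟨δ, hδ, H⟩ := local_ineq P hε
    have hint : ∀ u v : ℝ, t1 ≤ u → u ≤ v → v ≤ t2 →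
        IntervalIntegrable (fun r => rate U g0 b a l r - ε) volume u v := by
      intro u v h1 h2 h3
      refine ContinuousOn.intervalIntegrable ?_
      rw [uIcc_of_le h2]
      exact ((rate_continuousOn P).mono (Icc_subset_Icc h1 h3)).sub continuousOn_const
    have ind : ∀ n : ℕ, ∀ t : ℝ, t1 ≤ t → t ≤ t2 → t - t1 ≤ n * δ →
        HH U g0 b a F (fun _ => t1) + ∫ r in t1..t, (rate U g0 b a l r - ε) ≤
          HH U g0 b a F (fun _ => t) := by
      intro n
      induction n with
      | zero =>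
        intro t h1 h2 h3
        have : t = t1 := by
          push_cast at h3
          linarith
        subst this
        simp
      | succ n ih =>
        intro t h1 h2 h3
        by_cases hc : t - t1 ≤ n * δ
        · exact ih t h1 h2 hc
        · push_cast at h3
          have hu1 : t1 ≤ t1 + n * δ := by
            have : (0 : ℝ) ≤ n * δ := by positivity
            linarith
          have hu2 : t1 + n * δ ≤ t := by linarith
          have a1 := ih (t1 + n * δ) hu1 (hu2.trans h2) (by linarith)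
          have a2 := H (t1 + n * δ) t hu1 hu2 h2 (by linarith)
          have a3 := intervalIntegral.integral_add_adjacent_intervals
            (hint t1 (t1 + n * δ) (le_refl _) hu1 (hu2.trans h2))
            (hint (t1 + n * δ) t hu1 hu2 h2)
          rw [← a3]
          linarith
    obtain ⟨n, hn⟩ := exists_nat_ge ((t2 - t1) / δ)
    exact ind n t2 h12 (le_refl _) (by rwa [div_le_iff₀ hδ] at hn)
  have hI : IntervalIntegrable (rate U g0 b a l) volume t1 t2 := by
    refine ContinuousOn.intervalIntegrable ?_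
    rw [uIcc_of_le h12]
    exact rate_continuousOn P
  refine le_of_forall_pos_le_add fun ε hε => ?_
  have h := key (ε / (t2 - t1 + 1)) (div_pos hε (by linarith))
  rw [intervalIntegral.integral_sub hI (by simp), intervalIntegral.integral_const,
    smul_eq_mul] at h
  have h2 : (t2 - t1) * (ε / (t2 - t1 + 1)) ≤ ε := by
    rw [← mul_div_assoc, div_le_iff₀ (by linarith)]
    nlinarith
  linarith

end one

end P365H878
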