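import Vale.Agent.P365.T2.H878.Path
import Mathlib.MeasureTheory.Integral.DominatedConvergence

set_option linter.all false

/-!
# P365 T2 / H878 / Path2: discharging the hypotheses of the path lemma; average over the static
potential.
-/

namespace P365H878

open MeasureTheory ProbabilityTheory Set Filter P365L P365L.Poi P365F
open scoped Real Topology

variable {ι : Type*}

/-- potentials with absorption at least `η` -/
def Dη (ι : Type*) (η : ℝ) : Set (ι → ℂ) := {W | ∀ x, (W x).im ≤ -η}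

section

variable [Fintype ι] [DecidableEq ι]
variable {U g0 b a : ι → ℝ} {F : (ι → ℂ) → ℝ} {l : ι → (ι → ℂ) → ℝ}

omit [Fintype ι] [DecidableEq ι] in
theorem es_ge {η t1 t2 : ℝ} (ha : ∀ x, 0 ≤ a x)
    (hη : ∀ x, η ≤ b x + a x * Real.exp (-t2)) {s : ι → ℝ}
    (hs : s ∈ Set.pi univ (fun _ : ι => Icc t1 t2)) (x : ι) : η ≤ es b a s x := by
  unfold es
  refine (hη x).trans ?_
  have h1 : s x ≤ t2 := (hs x (mem_univ x)).2
  have h2 := mul_le_mul_of_nonneg_left (Real.exp_le_exp.2 (neg_le_neg h1)) (ha x)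
  linarith

omit [Fintype ι] [DecidableEq ι] in
theorem Wc_mem {η t1 t2 : ℝ} (ha : ∀ x, 0 ≤ a x)
    (hη : ∀ x, η ≤ b x + a x * Real.exp (-t2)) {s : ι → ℝ}
    (hs : s ∈ Set.pi univ (fun _ : ι => Icc t1 t2)) (c : ι → ℝ) :
    Wc U (gs g0 a s) (es b a s) c ∈ Dη ι η := by
  intro x
  rw [Wc_im]
  exact neg_le_neg (es_ge ha hη hs x)

omit [Fintype ι] [DecidableEq ι] in
theorem continuous_Wc_c (U g e : ι → ℝ) : Continuous fun c : ι → ℝ => Wc U g e c := by
  unfold Wc
  fun_prop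

omit [Fintype ι] [DecidableEq ι] in
theorem continuous_Wc_s (U g0 b a : ι → ℝ) (c : ι → ℝ) :
    Continuous fun s : ι → ℝ => Wc U (gs g0 a s) (es b a s) c := by
  unfold Wc gs es
  fun_prop

omit [Fintype ι] [DecidableEq ι] in
theorem continuous_comp_Wc {η : ℝ} {f : (ι → ℂ) → ℝ} (hf : ContinuousOn f (Dη ι η))
    {g e : ι → ℝ} (he : ∀ x, η ≤ e x) : Continuous fun c : ι → ℝ => f (Wc U g e c) := by
  refine hf.comp_continuous (continuous_Wc_c U g e) fun c x => ?_
  rw [Wc_im]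
  exact neg_le_neg (he x)

/-- a continuous function with an integrable bound is integrable along the path and its mean is
continuous in the time vector -/
theorem mean_continuousOn {η t1 t2 : ℝ} (ha : ∀ x, 0 ≤ a x)
    (hη : ∀ x, η ≤ b x + a x * Real.exp (-t2)) {f : (ι → ℂ) → ℝ}
    (hf : ContinuousOn f (Dη ι η)) {bd : (ι → ℝ) → ℝ} (hbd : Integrable bd (mu ι))
    (hb : ∀ s ∈ Set.pi univ (fun _ : ι => Icc t1 t2), ∀ c,
      |f (Wc U (gs g0 a s) (es b a s) c)| ≤ bd c) :
    (∀ s ∈ Set.pi univ (fun _ : ι => Icc t1 t2),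
      Integrable (fun c => f (Wc U (gs g0 a s) (es b a s) c)) (mu ι)) ∧
    ContinuousOn (HH U g0 b a f) (Set.pi univ (fun _ : ι => Icc t1 t2)) := by
  have hm : ∀ s ∈ Set.pi univ (fun _ : ι => Icc t1 t2),
      AEStronglyMeasurable (fun c => f (Wc U (gs g0 a s) (es b a s) c)) (mu ι) := fun s hs =>
    (continuous_comp_Wc hf (es_ge ha hη hs)).aestronglyMeasurable
  refine ⟨fun s hs => ?_, ?_⟩
  · exact Integrable.mono' hbd (hm s hs) (Eventually.of_forall fun c => hb s hs c)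
  · unfold HH
    refine continuousOn_of_dominated (bound := bd) hm
      (fun s hs => Eventually.of_forall fun c => hb s hs c) hbd
      (Eventually.of_forall fun c => ?_)
    exact hf.comp (continuous_Wc_s U g0 b a c).continuousOn fun s hs => Wc_mem ha hη hs c

/-- **hypotheses of the path lemma from continuity and integrable bounds** -/
theorem pathHyp_of_dom {η t1 t2 : ℝ} (hg0 : ∀ x, 0 ≤ g0 x) (ha : ∀ x, 0 ≤ a x)
    (hb0 : ∀ x, 0 ≤ b x) (ht1 : 0 ≤ t1) (hη : ∀ x, η ≤ b x + a x * Real.exp (-t2))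
    (hF : ContinuousOn F (Dη ι η)) (hl : ∀ y, ContinuousOn (l y) (Dη ι η))
    {bF : (ι → ℝ) → ℝ} (hbF : Integrable bF (mu ι))
    (hbF' : ∀ s ∈ Set.pi univ (fun _ : ι => Icc t1 t2), ∀ c,
      |F (Wc U (gs g0 a s) (es b a s) c)| ≤ bF c)
    {bl : ι → (ι → ℝ) → ℝ} (hbl : ∀ y, Integrable (bl y) (mu ι))
    (hbl' : ∀ y, ∀ s ∈ Set.pi univ (fun _ : ι => Icc t1 t2), ∀ c,
      |l y (Wc U (gs g0 a s) (es b a s) c)| ≤ bl y c)
    (hkick : ∀ y, ∀ W ∈ Dη ι η, ∀ h : ℝ, 0 < h → h ≤ -(W y).im / 2 →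
      F W + h * l y W ≤ ∫ t, F (kickW y h W t) ∂nu) :
    PathHyp U g0 b a F l t1 t2 := by
  refine ⟨hg0, ha, hb0, ht1, (mean_continuousOn ha hη hF hbF hbF').1,
    fun y => (mean_continuousOn ha hη (hl y) (hbl y) (hbl' y)).1, ?_,
    fun y => (mean_continuousOn ha hη (hl y) (hbl y) (hbl' y)).2⟩
  intro y s hs c h h1 h2
  refine hkick y _ (Wc_mem ha hη hs c) h h1 ?_
  rw [Wc_im, neg_neg]
  exact h2

/-- **hypotheses of the path lemma from continuity and uniform bounds** -/
theorem pathHyp_of_bdd {η t1 t2 C : ℝ} (hg0 : ∀ x, 0 ≤ g0 x) (ha : ∀ x, 0 ≤ a x)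
    (hb0 : ∀ x, 0 ≤ b x) (ht1 : 0 ≤ t1) (hη : ∀ x, η ≤ b x + a x * Real.exp (-t2))
    (hF : ContinuousOn F (Dη ι η)) (hl : ∀ y, ContinuousOn (l y) (Dη ι η))
    (hbF : ∀ W ∈ Dη ι η, |F W| ≤ C) (hbl : ∀ y, ∀ W ∈ Dη ι η, |l y W| ≤ C)
    (hkick : ∀ y, ∀ W ∈ Dη ι η, ∀ h : ℝ, 0 < h → h ≤ -(W y).im / 2 →
      F W + h * l y W ≤ ∫ t, F (kickW y h W t) ∂nu) :
    PathHyp U g0 b a F l t1 t2 :=
  pathHyp_of_dom hg0 ha hb0 ht1 hη hF hl (bF := fun _ => C) (integrable_const C)
    (fun s hs c => hbF _ (Wc_mem ha hη hs c)) (bl := fun _ _ => C)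
    (fun _ => integrable_const C) (fun y s hs c => hbl y _ (Wc_mem ha hη hs c)) hkick

/-! ### average over the static potential -/

/-- mean over the noise and over the static potential -/
noncomputable def HA {Ω : Type*} [MeasurableSpace Ω] (P : Measure Ω) (V : Ω → ι → ℝ)
    (g0 b a : ι → ℝ) (f : (ι → ℂ) → ℝ) (t : ℝ) : ℝ :=
  ∫ ω, HH (V ω) g0 b a f (fun _ => t) ∂P

omit [Fintype ι] [DecidableEq ι] in
theorem continuous_joint (g0 b a : ι → ℝ) :
    Continuous fun p : (ι → ℝ) × (ι → ℝ) × ℝ =>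
      Wc p.1 (gs g0 a fun _ => p.2.2) (es b a fun _ => p.2.2) p.2.1 := by
  unfold Wc gs es
  fun_prop

/-- joint measurability of the mean over the noise -/
theorem aesm_joint {Ω : Type*} [MeasurableSpace Ω] (P : Measure Ω) [SFinite P]
    {V : Ω → ι → ℝ} (hV : Measurable V) {η t1 t2 : ℝ} (ha : ∀ x, 0 ≤ a x)
    (hη : ∀ x, η ≤ b x + a x * Real.exp (-t2)) {f : (ι → ℂ) → ℝ}
    (hf : ContinuousOn f (Dη ι η)) :
    AEStronglyMeasurable (Function.uncurry fun (r : ℝ) (ω : Ω) =>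
      HH (V ω) g0 b a f (fun _ => r)) ((volume.restrict (Ioc t1 t2)).prod P) := by
  -- replace `r` by `min r t2`, then everything is continuous
  have h0 : Continuous fun p : (ι → ℝ) × (ι → ℝ) × ℝ =>
      f (Wc p.1 (gs g0 a fun _ => min p.2.2 t2) (es b a fun _ => min p.2.2 t2) p.2.1) := by
    refine hf.comp_continuous ?_ fun p x => ?_
    · exact (continuous_joint g0 b a).comp
        (by fun_prop : Continuous fun p : (ι → ℝ) × (ι → ℝ) × ℝ => (p.1, p.2.1, min p.2.2 t2))
    · rw [Wc_im]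
      refine neg_le_neg ?_
      unfold es
      refine (hη x).trans ?_
      have h2 := mul_le_mul_of_nonneg_left
        (Real.exp_le_exp.2 (neg_le_neg (min_le_right p.2.2 t2))) (ha x)
      linarith
  have h1 : StronglyMeasurable (Function.uncurry fun (q : ℝ × Ω) (c : ι → ℝ) =>
      f (Wc (V q.2) (gs g0 a fun _ => min q.1 t2) (es b a fun _ => min q.1 t2) c)) := by
    refine (h0.measurable.comp (g := fun p : (ι → ℝ) × (ι → ℝ) × ℝ =>
      f (Wc p.1 (gs g0 a fun _ => min p.2.2 t2) (es b a fun _ => min p.2.2 t2) p.2.1))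
      (f := fun z : (ℝ × Ω) × (ι → ℝ) => (V z.1.2, z.2, z.1.1)) ?_).stronglyMeasurable
    exact (hV.comp (measurable_snd.comp measurable_fst)).prodMk
      (measurable_snd.prodMk (measurable_fst.comp measurable_fst))
  have h2 := h1.integral_prod_right (ν := mu ι)
  refine ⟨_, h2, ?_⟩
  have h3 : ∀ᵐ q ∂((volume.restrict (Ioc t1 t2)).prod P), q.1 ∈ Ioc t1 t2 := by
    have h4 : ∀ᵐ r ∂(volume.restrict (Ioc t1 t2)), r ∈ Ioc t1 t2 :=
      ae_restrict_mem measurableSet_Ioc
    exact Measure.quasiMeasurePreserving_fst.ae h4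
  filter_upwards [h3] with q hq
  simp only [Function.uncurry, HH]
  rw [min_eq_left hq.2]

theorem abs_HH_le {η t1 t2 C : ℝ} (ha : ∀ x, 0 ≤ a x)
    (hη : ∀ x, η ≤ b x + a x * Real.exp (-t2)) {f : (ι → ℂ) → ℝ}
    (hf : ∀ W ∈ Dη ι η, |f W| ≤ C) {s : ι → ℝ}
    (hs : s ∈ Set.pi univ (fun _ : ι => Icc t1 t2)) : |HH U g0 b a f s| ≤ C := by
  unfold HH
  have h := norm_integral_le_of_norm_le_const (μ := mu ι) (C := C)
    (f := fun c => f (Wc U (gs g0 a s) (es b a s) c))
    (Eventually.of_forall fun c => hf _ (Wc_mem ha hη hs c))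
  simpa using h

/-- **averaged path lemma** -/
theorem path_avg {Ω : Type*} [MeasurableSpace Ω] (P : Measure Ω) [IsProbabilityMeasure P]
    {V : Ω → ι → ℝ} (hV : Measurable V) {η t1 t2 C : ℝ} (hg0 : ∀ x, 0 ≤ g0 x)
    (ha : ∀ x, 0 ≤ a x) (hb0 : ∀ x, 0 ≤ b x) (ht1 : 0 ≤ t1) (h12 : t1 ≤ t2)
    (hη : ∀ x, η ≤ b x + a x * Real.exp (-t2))
    (hF : ContinuousOn F (Dη ι η)) (hl : ∀ y, ContinuousOn (l y) (Dη ι η))
    (hbF : ∀ W ∈ Dη ι η, |F W| ≤ C) (hbl : ∀ y, ∀ W ∈ Dη ι η, |l y W| ≤ C)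
    (hkick : ∀ y, ∀ W ∈ Dη ι η, ∀ h : ℝ, 0 < h → h ≤ -(W y).im / 2 →
      F W + h * l y W ≤ ∫ t, F (kickW y h W t) ∂nu) :
    HA P V g0 b a F t1 + ∫ r in t1..t2, ∑ y, a y * Real.exp (-r) * HA P V g0 b a (l y) r ≤
      HA P V g0 b a F t2 := by
  have hd : ∀ r : ℝ, r ∈ Icc t1 t2 → (fun _ : ι => r) ∈ Set.pi univ (fun _ : ι => Icc t1 t2) :=
    fun r hr x _ => hr
  -- integrability in ω at a fixed time
  have hint : ∀ (f : (ι → ℂ) → ℝ), ContinuousOn f (Dη ι η) → (∀ W ∈ Dη ι η, |f W| ≤ C) →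
      ∀ r ∈ Icc t1 t2, Integrable (fun ω => HH (V ω) g0 b a f (fun _ => r)) P := by
    intro f hf hfb r hr
    have hsm : StronglyMeasurable fun ω => HH (V ω) g0 b a f (fun _ => r) := by
      have h1 : StronglyMeasurable (Function.uncurry fun (ω : Ω) (c : ι → ℝ) =>
          f (Wc (V ω) (gs g0 a fun _ => r) (es b a fun _ => r) c)) := by
        have h0 : Continuous fun p : (ι → ℝ) × (ι → ℝ) =>
            f (Wc p.1 (gs g0 a fun _ => r) (es b a fun _ => r) p.2) := by
          refine hf.comp_continuous ?_ fun p => Wc_mem ha hη (hd r hr) p.2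
          exact (continuous_joint g0 b a).comp
            (by fun_prop : Continuous fun p : (ι → ℝ) × (ι → ℝ) => (p.1, p.2, r))
        refine (h0.measurable.comp (g := fun p : (ι → ℝ) × (ι → ℝ) =>
          f (Wc p.1 (gs g0 a fun _ => r) (es b a fun _ => r) p.2))
          (f := fun z : Ω × (ι → ℝ) => (V z.1, z.2)) ?_).stronglyMeasurable
        exact (hV.comp measurable_fst).prodMk measurable_snd
      exact h1.integral_prod_right (ν := mu ι)
    refine Integrable.mono' (integrable_const C) hsm.aestronglyMeasurable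
      (Eventually.of_forall fun ω => ?_)
    exact abs_HH_le ha hη hfb (hd r hr)
  -- swap for the rates
  have hswap : ∀ y, ∫ ω, (∫ r in t1..t2, a y * Real.exp (-r) *
      HH (V ω) g0 b a (l y) (fun _ => r)) ∂P =
      ∫ r in t1..t2, a y * Real.exp (-r) * HA P V g0 b a (l y) r ∧
      Integrable (fun ω => ∫ r in t1..t2, a y * Real.exp (-r) *
        HH (V ω) g0 b a (l y) (fun _ => r)) P ∧
      IntervalIntegrable (fun r => a y * Real.exp (-r) * HA P V g0 b a (l y) r) volume t1 t2 := by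
    intro y
    have hprod : Integrable (Function.uncurry fun (r : ℝ) (ω : Ω) =>
        a y * Real.exp (-r) * HH (V ω) g0 b a (l y) (fun _ => r))
        ((volume.restrict (Ioc t1 t2)).prod P) := by
      refine Integrable.mono' (integrable_const (a y * Real.exp (-t1) * C)) ?_ ?_
      · exact ((by fun_prop : Measurable fun q : ℝ × Ω =>
          a y * Real.exp (-q.1)).aestronglyMeasurable).mul (aesm_joint P hV ha hη (hl y))
      · have h3 : ∀ᵐ q ∂((volume.restrict (Ioc t1 t2)).prod P), q.1 ∈ Ioc t1 t2 := by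
          have h4 : ∀ᵐ r ∂(volume.restrict (Ioc t1 t2)), r ∈ Ioc t1 t2 :=
            ae_restrict_mem measurableSet_Ioc
          exact Measure.quasiMeasurePreserving_fst.ae h4
        filter_upwards [h3] with q hq
        have h5 := abs_HH_le (U := V q.2) (g0 := g0) ha hη (hbl y)
          (hd q.1 ⟨hq.1.le, hq.2⟩)
        simp only [Function.uncurry]
        rw [Real.norm_eq_abs, abs_mul, abs_of_nonneg (mul_nonneg (ha y) (Real.exp_pos _).le)]
        refine mul_le_mul ?_ h5 (abs_nonneg _) (mul_nonneg (ha y) (Real.exp_pos _).le)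
        exact mul_le_mul_of_nonneg_left (Real.exp_le_exp.2 (neg_le_neg hq.1.le)) (ha y)
    have hsw := integral_integral_swap hprod
    have hI1 := hprod.integral_prod_left
    have hI2 := hprod.integral_prod_right
    simp only [Function.uncurry] at hI1 hI2
    simp only [integral_const_mul] at hsw hI1
    refine ⟨?_, ?_, ?_⟩
    · simp only [intervalIntegral.integral_of_le h12]
      rw [← hsw]
      rfl
    · simp only [intervalIntegral.integral_of_le h12]
      exact hI2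
    · rw [intervalIntegrable_iff_integrableOn_Ioc_of_le h12]
      exact hI1
  have hpt : ∀ ω, HH (V ω) g0 b a F (fun _ => t1) + ∑ y, ∫ r in t1..t2, a y * Real.exp (-r) *
      HH (V ω) g0 b a (l y) (fun _ => r) ≤ HH (V ω) g0 b a F (fun _ => t2) := by
    intro ω
    have hP := pathHyp_of_bdd (U := V ω) (g0 := g0) (b := b) (a := a) (t1 := t1) hg0 ha hb0 ht1 hη
      hF hl hbF hbl hkick
    have h := path hP h12
    unfold rate at h
    rw [intervalIntegral.integral_finset_sum] at h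
    · exact h
    · intro y _
      refine ContinuousOn.intervalIntegrable ?_
      rw [uIcc_of_le h12]
      exact (by fun_prop : Continuous fun t : ℝ => a y * Real.exp (-t)).continuousOn.mul
        (diag_continuousOn hP y)
  have hmono := integral_mono (μ := P)
    ((hint F hF hbF t1 ⟨le_refl _, h12⟩).add
      (integrable_finset_sum Finset.univ fun y _ => (hswap y).2.1))
    (hint F hF hbF t2 ⟨h12, le_refl _⟩) (fun ω => by
      have := hpt ω
      simpa using this)
  rw [integral_add' (hint F hF hbF t1 ⟨le_refl _, h12⟩)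
      (integrable_finset_sum Finset.univ fun y _ => (hswap y).2.1),
    integral_finset_sum _ (fun y _ => (hswap y).2.1)] at hmono
  rw [intervalIntegral.integral_finset_sum fun y _ => (hswap y).2.2]
  unfold HA at *
  refine le_trans (le_of_eq ?_) hmono
  congr 1
  exact Finset.sum_congr rfl fun y _ => (hswap y).1.symm

end

end P365H878
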