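import Vale.Agent.P365.J376.PathG
import Mathlib.Analysis.Calculus.ContDiff.Operations
import Mathlib.Analysis.Calculus.ContDiff.RCLike
import Mathlib.Analysis.SpecialFunctions.Log.Deriv

set_option linter.all false

/-!
# P365 T2 / H878 / Smooth: differentiability of means of general functionals along the chain.

* `contDiffOn_Gr`: the entries of the Green matrix are smooth in `W` on `Im W < 0`;
* `hasDerivAt_ExF`, `hasDerivAt_AvGF`: for every functional `F` of class `C¹` on `Im W < 0` and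
  product laws carried by `[-lam, lam]`: `d/ds E F = ∑ x, w x * E (∂F/∂e_x)`.
-/

namespace P365H878

open MeasureTheory Set Filter P365L P365O P365T1 Vale.Agent.P365.J376 Complex
open scoped Topology ComplexConjugate

variable {ι : Type*} [Fintype ι] [DecidableEq ι] {A : Matrix ι ι ℝ}

/-- the domain: all absorptions positive -/
def Om (ι : Type*) : Set (ι → ℂ) := {W | ∀ x, (W x).im < 0}

omit [DecidableEq ι] in
theorem isOpen_Om : IsOpen (Om ι) := by
  have h : Om ι = ⋂ x, {W : ι → ℂ | (W x).im < 0} := by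
    ext W
    simp [Om]
  rw [h]
  refine isOpen_iInter_of_finite fun x => ?_
  exact isOpen_lt (Complex.continuous_im.comp (continuous_apply x)) continuous_const

omit [DecidableEq ι] in
theorem Om_mem_nhds {W : ι → ℂ} (hW : W ∈ Om ι) : Om ι ∈ 𝓝 W := isOpen_Om.mem_nhds hW

/-! ### smoothness of the Green matrix -/

theorem contDiff_det {X : Type*} [NormedAddCommGroup X] [NormedSpace ℝ X]
    {M : X → Matrix ι ι ℂ} {n : WithTop ℕ∞} (h : ∀ i j, ContDiff ℝ n fun x => M x i j) :
    ContDiff ℝ n fun x => (M x).det := by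
  simp only [Matrix.det_apply']
  refine ContDiff.sum fun σ _ => ?_
  refine contDiff_const.mul ?_
  exact contDiff_prod fun i _ => h _ _

theorem contDiff_Kmat (A : Matrix ι ι ℝ) {n : WithTop ℕ∞} (i j : ι) :
    ContDiff ℝ n fun W : ι → ℂ => Kmat A W i j := by
  unfold Kmat
  simp only [Matrix.add_apply]
  refine contDiff_const.add ?_
  by_cases h : i = j
  · subst h
    simp only [Matrix.diagonal_apply_eq]
    exact contDiff_apply ℝ ℂ i
  · simp only [Matrix.diagonal_apply_ne _ h]
    exact contDiff_const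

theorem contDiff_adj (A : Matrix ι ι ℝ) {n : WithTop ℕ∞} (i j : ι) :
    ContDiff ℝ n fun W : ι → ℂ => (Kmat A W).adjugate i j := by
  simp only [Matrix.adjugate_apply]
  refine contDiff_det fun k l => ?_
  by_cases h : k = j
  · subst h
    simp only [Matrix.updateRow_self]
    exact contDiff_const
  · simp only [Matrix.updateRow_ne h]
    exact contDiff_Kmat A k l

theorem det_ne (hA : A.IsSymm) {W : ι → ℂ} (hW : W ∈ Om ι) : (Kmat A W).det ≠ 0 := by
  have h := Matrix.isUnit_det_of_right_inverse (Kmat_mul_Gr hA hW)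
  exact h.ne_zero

/-- **the entries of the Green matrix are smooth** -/
theorem contDiffOn_Gr (hA : A.IsSymm) {n : WithTop ℕ∞} (a b : ι) :
    ContDiffOn ℝ n (fun W : ι → ℂ => Gr A W a b) (Om ι) := by
  have e : ∀ W : ι → ℂ, Gr A W a b = ((Kmat A W).det)⁻¹ * (Kmat A W).adjugate a b := by
    intro W
    rw [Gr, Matrix.inv_def, Ring.inverse_eq_inv', Matrix.smul_apply, smul_eq_mul]
  simp only [e]
  refine ContDiffOn.mul ?_ (contDiff_adj A a b).contDiffOn
  refine ContDiffOn.inv (contDiff_det fun i j => contDiff_Kmat A i j).contDiffOn fun W hW => ?_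
  exact det_ne hA hW

theorem contDiffOn_KK (hA : A.IsSymm) {n : WithTop ℕ∞} (a b : ι) :
    ContDiffOn ℝ n (fun W : ι → ℂ => KK A W a b) (Om ι) := by
  unfold KK
  exact (contDiffOn_Gr hA a b).norm_sq ℝ

theorem contDiff_imc {n : WithTop ℕ∞} (x : ι) : ContDiff ℝ n fun W : ι → ℂ => (W x).im :=
  Complex.imCLM.contDiff.comp (contDiff_apply ℝ ℂ x)

theorem contDiff_rec {n : WithTop ℕ∞} (x : ι) : ContDiff ℝ n fun W : ι → ℂ => (W x).re :=
  Complex.reCLM.contDiff.comp (contDiff_apply ℝ ℂ x)

theorem contDiffOn_mm (hA : A.IsSymm) {n : WithTop ℕ∞} (a : ι) :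
    ContDiffOn ℝ n (fun W : ι → ℂ => mm A W a) (Om ι) := by
  unfold mm
  exact Complex.imCLM.contDiff.comp_contDiffOn (contDiffOn_Gr hA a a)

/-! ### directional derivatives -/

/-- derivative with respect to the absorption of `x` -/
noncomputable def DE (F : (ι → ℂ) → ℝ) (x : ι) (W : ι → ℂ) : ℝ :=
  fderiv ℝ F W (Pi.single x (-I))

/-- derivative with respect to the real potential of `x` -/
noncomputable def DV (F : (ι → ℂ) → ℝ) (x : ι) (W : ι → ℂ) : ℝ :=
  fderiv ℝ F W (Pi.single x 1)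

/-- derivative of a `C¹` functional along a path of profiles -/
theorem hasDerivAt_path {F : (ι → ℂ) → ℝ} (hF : ContDiffOn ℝ 1 F (Om ι)) (E : ℝ)
    {v : ι → ℝ} {h : ℝ → ι → ℝ} {h' : ι → ℝ} {s : ℝ}
    (hd : ∀ x, HasDerivAt (fun s => h s x) (h' x) s) (hpos : ∀ x, 0 < h s x) :
    HasDerivAt (fun s => F (WV E (h s) v)) (∑ x, h' x * DE F x (WV E (h s) v)) s := by
  have hW : WV E (h s) v ∈ Om ι := fun x => by
    unfold WV
    simp [hpos x]
  have hFd : HasFDerivAt F (fderiv ℝ F (WV E (h s) v)) (WV E (h s) v) :=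
    ((hF.differentiableOn one_ne_zero).differentiableAt (Om_mem_nhds hW)).hasFDerivAt
  have hWd : HasDerivAt (fun s => WV E (h s) v) (fun x => -((h' x : ℂ) * I)) s := by
    rw [hasDerivAt_pi]
    intro x
    have h1 : HasDerivAt (fun s => (h s x : ℂ)) (h' x : ℂ) s := (hd x).ofReal_comp
    exact (h1.mul_const I).const_sub (((v x - E : ℝ) : ℂ))
  have h2 := hFd.comp_hasDerivAt s hWd
  have e : (fun x => -((h' x : ℂ) * I)) = ∑ x, h' x • (Pi.single x (-I) : ι → ℂ) := by
    funext y
    rw [Finset.sum_apply, Finset.sum_eq_single y]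
    · simp
    · intro z _ hz
      simp [Pi.single_eq_of_ne hz.symm]
    · simp
  rw [e, map_sum] at h2
  refine h2.congr_deriv ?_
  refine Finset.sum_congr rfl fun x _ => ?_
  rw [map_smul, smul_eq_mul]
  rfl

/-- derivative of a `C¹` functional in one real potential -/
theorem hasDerivAt_pot {F : (ι → ℂ) → ℝ} (hF : ContDiffOn ℝ 1 F (Om ι)) {W : ι → ℂ} {y : ι}
    (hW : W ∈ Om ι) (t : ℝ) :
    HasDerivAt (fun t : ℝ => F (Function.update W y (W y + t)))
      (DV F y (Function.update W y (W y + t))) t := by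
  have hW' : Function.update W y (W y + t) ∈ Om ι := by
    intro x
    by_cases h : x = y
    · subst h
      rw [Function.update_self]
      simpa using hW x
    · rw [Function.update_of_ne h]
      exact hW x
  have hFd : HasFDerivAt F (fderiv ℝ F (Function.update W y (W y + t)))
      (Function.update W y (W y + t)) :=
    ((hF.differentiableOn one_ne_zero).differentiableAt (Om_mem_nhds hW')).hasFDerivAt
  have hWd : HasDerivAt (fun t : ℝ => Function.update W y (W y + t)) (Pi.single y 1) t := by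
    rw [hasDerivAt_pi]
    intro x
    by_cases h : x = y
    · subst h
      simp only [Function.update_self, Pi.single_eq_same]
      exact (Complex.ofRealCLM.hasDerivAt.const_add (W x))
    · simp only [Function.update_of_ne h, Pi.single_eq_of_ne h]
      exact hasDerivAt_const _ _
  exact hFd.comp_hasDerivAt t hWd

/-- continuity of the partial derivatives -/
theorem continuousOn_DE {F : (ι → ℂ) → ℝ} (hF : ContDiffOn ℝ 1 F (Om ι)) (x : ι) :
    ContinuousOn (DE F x) (Om ι) :=
  (hF.continuousOn_fderiv_of_isOpen isOpen_Om (le_refl _)).clm_apply continuousOn_const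

theorem continuousOn_DV {F : (ι → ℂ) → ℝ} (hF : ContDiffOn ℝ 1 F (Om ι)) (x : ι) :
    ContinuousOn (DV F x) (Om ι) :=
  (hF.continuousOn_fderiv_of_isOpen isOpen_Om (le_refl _)).clm_apply continuousOn_const

theorem contDiffOn_DE {F : (ι → ℂ) → ℝ} {n : ℕ∞} (hF : ContDiffOn ℝ (n + 1) F (Om ι)) (x : ι) :
    ContDiffOn ℝ n (DE F x) (Om ι) :=
  (hF.fderiv_of_isOpen isOpen_Om (le_refl _)).clm_apply contDiffOn_const

theorem contDiffOn_DV {F : (ι → ℂ) → ℝ} {n : ℕ∞} (hF : ContDiffOn ℝ (n + 1) F (Om ι)) (x : ι) :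
    ContDiffOn ℝ n (DV F x) (Om ι) :=
  (hF.fderiv_of_isOpen isOpen_Om (le_refl _)).clm_apply contDiffOn_const

/-- the derivative of an entry of the Green matrix -/
theorem fderiv_Gr (hA : A.IsSymm) {W : ι → ℂ} (hW : W ∈ Om ι) (a b : ι) (H : ι → ℂ) :
    fderiv ℝ (fun W : ι → ℂ => Gr A W a b) W H = -∑ z, Gr A W a z * H z * Gr A W z b := by
  have hd : DifferentiableAt ℝ (fun W : ι → ℂ => Gr A W a b) W :=
    ((contDiffOn_Gr (n := 1) hA a b).differentiableOn one_ne_zero).differentiableAt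
      (Om_mem_nhds hW)
  have hline : HasDerivAt (fun s : ℝ => (fun x => W x + s * H x : ι → ℂ)) H 0 := by
    rw [hasDerivAt_pi]
    intro x
    have h1 : HasDerivAt (fun s : ℝ => (s : ℂ)) 1 0 := Complex.ofRealCLM.hasDerivAt
    simpa using (h1.mul_const (H x)).const_add (W x)
  have h0 : (fun x => W x + ((0 : ℝ) : ℂ) * H x) = W := by
    funext x; simp
  have hd' : HasFDerivAt (fun W : ι → ℂ => Gr A W a b)
      (fderiv ℝ (fun W : ι → ℂ => Gr A W a b) W) (fun x => W x + ((0 : ℝ) : ℂ) * H x) := by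
    rw [h0]; exact hd.hasFDerivAt
  have h2 := hd'.comp_hasDerivAt (0 : ℝ) hline
  have h3 : HasDerivAt (fun s : ℝ => Gr A (fun x => W x + (s : ℂ) * H x) a b)
      (∑ z, Gr A (fun x => W x + ((0 : ℝ) : ℂ) * H x) a z * (-(H z)) *
        Gr A (fun x => W x + ((0 : ℝ) : ℂ) * H x) z b) 0 := by
    refine hasDerivAt_Gr hA (W := fun s x => W x + (s : ℂ) * H x) (fun x => ?_) ?_ a b
    · exact (hasDerivAt_pi.1 hline) x
    · intro x
      simpa using hW x
  have h4 := h2.unique h3
  rw [h4, h0, ← Finset.sum_neg_distrib]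
  exact Finset.sum_congr rfl fun z _ => by ring

/-! ### means -/

omit [DecidableEq ι] in
theorem ae_supp (m : ι → Measure ℝ) [∀ x, IsProbabilityMeasure (m x)] {lam : ℝ}
    (hm : ∀ x, m x (Icc (-lam) lam)ᶜ = 0) :
    ∀ᵐ v ∂(Measure.pi m), v ∈ Set.pi univ (fun _ : ι => Icc (-lam) lam) := by
  have h : ∀ x : ι, ∀ᵐ v ∂(Measure.pi m), v x ∈ Icc (-lam) lam := by
    intro x
    have h1 : ∀ᵐ t ∂(m x), t ∈ Icc (-lam) lam := by
      rw [ae_iff]
      exact hm x
    exact (measurePreserving_eval m x).quasiMeasurePreserving.ae h1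
  filter_upwards [ae_all_iff.2 h] with v hv x _
  exact hv x

/-- a functional continuous on `Im W < 0` is bounded along a compact family of profiles -/
theorem bdd_compact {F : (ι → ℂ) → ℝ} (hF : ContinuousOn F (Om ι)) (E lam : ℝ) {X : Type*}
    [TopologicalSpace X] {K : Set X} (hK : IsCompact K) {e : X → ι → ℝ} (he : ContinuousOn e K)
    (hpos : ∀ s ∈ K, ∀ x, 0 < e s x) :
    ∃ C : ℝ, 0 ≤ C ∧ ∀ s ∈ K, ∀ v ∈ Set.pi univ (fun _ : ι => Icc (-lam) lam),
      |F (WV E (e s) v)| ≤ C := by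
  have hc : IsCompact (K ×ˢ Set.pi univ (fun _ : ι => Icc (-lam) lam)) :=
    hK.prod (isCompact_univ_pi fun _ => isCompact_Icc)
  have hf : ContinuousOn (fun p : X × (ι → ℝ) => F (WV E (e p.1) p.2))
      (K ×ˢ Set.pi univ (fun _ : ι => Icc (-lam) lam)) := by
    refine hF.comp (f := fun p : X × (ι → ℝ) => WV E (e p.1) p.2) ?_ ?_
    · refine continuousOn_pi.2 fun x => ?_
      unfold WV
      have h1 : ContinuousOn (fun p : X × (ι → ℝ) => e p.1 x)
          (K ×ˢ Set.pi univ (fun _ : ι => Icc (-lam) lam)) :=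
        (continuous_apply x).comp_continuousOn
          (he.comp continuousOn_fst fun p hp => hp.1)
      refine ContinuousOn.sub ?_ ((Complex.continuous_ofReal.comp_continuousOn h1).mul
        continuousOn_const)
      exact (by fun_prop : Continuous fun p : X × (ι → ℝ) =>
        (((p.2 x - E : ℝ)) : ℂ)).continuousOn
    · intro p hp x
      unfold WV
      simp [hpos p.1 hp.1 x]
  obtain ⟨C, hC⟩ := hc.exists_bound_of_continuousOn hf
  refine ⟨max C 0, le_max_right _ _, fun s hs v hv => ?_⟩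
  have := hC (s, v) ⟨hs, hv⟩
  rw [Real.norm_eq_abs] at this
  exact this.trans (le_max_left _ _)

omit [Fintype ι] [DecidableEq ι] in
theorem WV_mem {E : ℝ} {e v : ι → ℝ} (he : ∀ x, 0 < e x) : WV E e v ∈ Om ι := fun x => by
  unfold WV
  simp [he x]

theorem continuous_WV_v (E : ℝ) (e : ι → ℝ) : Continuous fun v : ι → ℝ => WV E e v := by
  unfold WV
  fun_prop

/-- measurability in the potential -/
theorem continuous_F_WV {F : (ι → ℂ) → ℝ} (hF : ContinuousOn F (Om ι)) (E : ℝ) {e : ι → ℝ}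
    (he : ∀ x, 0 < e x) : Continuous fun v : ι → ℝ => F (WV E e v) :=
  hF.comp_continuous (continuous_WV_v E e) fun v => WV_mem he

/-- integrability of a continuous functional -/
theorem integrable_ExF {F : (ι → ℂ) → ℝ} (hF : ContinuousOn F (Om ι)) (m : ι → Measure ℝ)
    [∀ x, IsProbabilityMeasure (m x)] {lam : ℝ} (hm : ∀ x, m x (Icc (-lam) lam)ᶜ = 0) (E : ℝ)
    {e : ι → ℝ} (he : ∀ x, 0 < e x) :
    Integrable (fun v => F (WV E e v)) (Measure.pi m) := by
  obtain ⟨C, hC0, hC⟩ := bdd_compact hF E lam (X := Unit) (K := univ) isCompact_univ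
    (e := fun _ => e) continuousOn_const (fun _ _ => he)
  refine Integrable.mono' (integrable_const C) (continuous_F_WV hF E he).aestronglyMeasurable ?_
  filter_upwards [ae_supp m hm] with v hv
  rw [Real.norm_eq_abs]
  exact hC () (mem_univ _) v hv

/-- **derivative of the mean of a `C¹` functional along the affine path of profiles** -/
theorem hasDerivAt_ExF {F : (ι → ℂ) → ℝ} (hF : ContDiffOn ℝ 1 F (Om ι)) (m : ι → Measure ℝ)
    [∀ x, IsProbabilityMeasure (m x)] {lam : ℝ} (hm : ∀ x, m x (Icc (-lam) lam)ᶜ = 0) (E : ℝ)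
    {u w : ι → ℝ} {s : ℝ} (hpos : ∀ x, 0 < u x + s * w x) :
    HasDerivAt (fun s => Ex m E (fun x => u x + s * w x) F)
      (∑ x, w x * Ex m E (fun x => u x + s * w x) (DE F x)) s := by
  -- a neighbourhood of `s`
  obtain ⟨δ, hδ, hδ2⟩ : ∃ δ > 0, ∀ r ∈ Icc (s - δ) (s + δ), ∀ x, 0 < u x + r * w x := by
    have h1 : ∀ᶠ r in 𝓝 s, ∀ x, 0 < u x + r * w x := by
      rw [eventually_all]
      intro x
      have hc : ContinuousAt (fun r : ℝ => u x + r * w x) s := by fun_prop
      exact hc.eventually (lt_mem_nhds (hpos x))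
    obtain ⟨ε, hε, hε2⟩ := Metric.eventually_nhds_iff.1 h1
    refine ⟨ε / 2, half_pos hε, fun r hr => hε2 ?_⟩
    rw [Real.dist_eq, abs_lt]
    constructor <;> linarith [hr.1, hr.2]
  have hcK : IsCompact (Icc (s - δ) (s + δ)) := isCompact_Icc
  have heK : ContinuousOn (fun (r : ℝ) (x : ι) => u x + r * w x) (Icc (s - δ) (s + δ)) :=
    (by fun_prop : Continuous fun (r : ℝ) (x : ι) => u x + r * w x).continuousOn
  choose C hC0 hC using fun x => bdd_compact (continuousOn_DE hF x) E lam hcK heK hδ2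
  have hs : Icc (s - δ) (s + δ) ∈ 𝓝 s := Icc_mem_nhds (by linarith) (by linarith)
  have hFc : ContinuousOn F (Om ι) := hF.continuousOn
  have key := hasDerivAt_integral_of_dominated_loc_of_deriv_le (μ := Measure.pi m)
    (s := Icc (s - δ) (s + δ))
    (F := fun r v => F (WV E (fun x => u x + r * w x) v))
    (F' := fun r v => ∑ x, w x * DE F x (WV E (fun x => u x + r * w x) v))
    (bound := fun _ => ∑ x, |w x| * C x) hs ?_ ?_ ?_ ?_ (integrable_const _) ?_
  · have h2 := key.2
    have e : (∑ x, w x * Ex m E (fun x => u x + s * w x) (DE F x)) =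
        ∫ v, ∑ x, w x * DE F x (WV E (fun x => u x + s * w x) v) ∂(Measure.pi m) := by
      rw [integral_finset_sum]
      · refine Finset.sum_congr rfl fun x _ => ?_
        rw [integral_const_mul]
        rfl
      · intro x _
        exact (integrable_ExF (continuousOn_DE hF x) m hm E hpos).const_mul _
    rw [e]
    exact h2
  · filter_upwards [hs] with r hr
    exact (continuous_F_WV hFc E (hδ2 r hr)).aestronglyMeasurable
  · exact integrable_ExF hFc m hm E hpos
  · refine (continuous_finset_sum _ fun x _ => ?_).aestronglyMeasurable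
    exact continuous_const.mul (continuous_F_WV (continuousOn_DE hF x) E hpos)
  · filter_upwards [ae_supp m hm] with v hv r hr
    rw [Real.norm_eq_abs]
    refine (Finset.abs_sum_le_sum_abs _ _).trans (Finset.sum_le_sum fun x _ => ?_)
    rw [abs_mul]
    exact mul_le_mul_of_nonneg_left (hC x r hr v hv) (abs_nonneg _)
  · refine Eventually.of_forall fun v r hr => ?_
    exact hasDerivAt_path hF E (h := fun r x => u x + r * w x) (h' := w)
      (fun x => by simpa using ((hasDerivAt_id r).mul_const (w x)).const_add (u x)) (hδ2 r hr)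

/-- label-sum version -/
theorem hasDerivAt_AvGF {Λ : Type*} [Fintype Λ] (p : Λ → ℝ) (ν : Λ → Measure ℝ)
    [∀ k, IsProbabilityMeasure (ν k)] {lam : ℝ} (hm : ∀ k, ν k (Icc (-lam) lam)ᶜ = 0) (E : ℝ)
    {G : (ι → Λ) → (ι → ℂ) → ℝ} (hG : ∀ l, ContDiffOn ℝ 1 (G l) (Om ι))
    {u w : (ι → Λ) → ι → ℝ} {s : ℝ} (hpos : ∀ l x, 0 < u l x + s * w l x) :
    HasDerivAt (fun s => AvG p ν E (fun l x => u l x + s * w l x) G)
      (AvG p ν E (fun l x => u l x + s * w l x) fun l W => ∑ x, w l x * DE (G l) x W) s := by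
  unfold AvG
  have h1 : ∀ l : ι → Λ, HasDerivAt
      (fun s : ℝ => (∏ x, p (l x)) * Ex (fun x => ν (l x)) E (fun x => u l x + s * w l x) (G l))
      ((∏ x, p (l x)) * ∑ x, w l x * Ex (fun x => ν (l x)) E (fun x => u l x + s * w l x)
        (DE (G l) x)) s := fun l =>
    (hasDerivAt_ExF (hG l) (fun x => ν (l x)) (fun x => hm (l x)) E (hpos l)).const_mul _
  have h2 := HasDerivAt.fun_sum (u := Finset.univ) fun l _ => h1 l
  refine h2.congr_deriv ?_
  refine Finset.sum_congr rfl fun l _ => ?_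
  congr 1
  unfold Ex
  rw [integral_finset_sum]
  · refine Finset.sum_congr rfl fun x _ => ?_
    rw [integral_const_mul]
  · intro x _
    exact (integrable_ExF (continuousOn_DE (hG l) x) (fun x => ν (l x)) (fun x => hm (l x)) E
      (hpos l)).const_mul _

/-- the mean is continuous in the profile parameter -/
theorem continuousAt_AvGF {Λ : Type*} [Fintype Λ] (p : Λ → ℝ) (ν : Λ → Measure ℝ)
    [∀ k, IsProbabilityMeasure (ν k)] {lam : ℝ} (hm : ∀ k, ν k (Icc (-lam) lam)ᶜ = 0) (E : ℝ)
    {G : (ι → Λ) → (ι → ℂ) → ℝ} (hG : ∀ l, ContDiffOn ℝ 1 (G l) (Om ι))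
    {u w : (ι → Λ) → ι → ℝ} {s : ℝ} (hpos : ∀ l x, 0 < u l x + s * w l x) :
    ContinuousAt (fun s => AvG p ν E (fun l x => u l x + s * w l x) G) s :=
  (hasDerivAt_AvGF p ν hm E hG hpos).continuousAt

end P365H878
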